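import Vale.Agent.P227.M.DU591.Stmt
import Vale.Agent.P227.M.ID.XCalc
import Vale.Agent.P227.M.ID.XStruct
import Vale.Agent.P227.M.Loc.Main

/-! # P227/M/DU591/Calc: integrations by parts for the dual end (helper591) -/

open MeasureTheory Filter
open scoped Topology

namespace Vale.Agent.P227.M.DU

variable {n : ℕ} {ψ V : E n → ℝ} {c C M : ℝ}

open X

theorem ll_tau (h : MM ψ V c C M) (i j : Fin n) : LL (fun x => tau ψ x i j) := by
  obtain ⟨K, hK, h1⟩ := XS.tau_lip h
  exact LL.of_lip (C := K) (h1 i j)

theorem ll_smooth {f : E n → ℝ} (hf : ContDiff ℝ (⊤ : ℕ∞) f) : LL f :=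
  LL.of_contDiff (hf.of_le (by norm_cast))

theorem ll_test {f : E n → ℝ} (hf : Test f) : LL f := ll_smooth hf.1

theorem cs_test {f : E n → ℝ} (hf : Test f) : CS f := CS.of_hasCompactSupport hf.2

theorem test_pd {f : E n → ℝ} (hf : Test f) (i : Fin n) : Test (pd i f) := Loc.test_pd hf i

theorem ll_fld (h : MM ψ V c C M) {f : E n → ℝ} (hf : Test f) (b : Fin n) : LL (fld ψ f b) :=
  LL.sum fun j _ => (ll_tau h b j).mul (ll_test (test_pd hf j))

theorem cs_fld {f : E n → ℝ} (hf : Test f) (b : Fin n) : CS (fld ψ f b) :=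
  CS.sum fun j _ => (cs_test (test_pd hf j)).mul_left _

theorem lb_rho (hV : Nice V c C) : LB (fun x => Real.exp (-V x)) :=
  LB.of_continuous (Real.continuous_exp.comp hV.toReg.cont.neg)

theorem int_lc (hV : Nice V c C) {f : E n → ℝ} (hf : LB f) (hc : CS f) :
    Integrable (fun x => f x * Real.exp (-V x)) :=
  (hf.mul (lb_rho hV)).integrable (hc.mul_right _)

theorem V1 (hV : Nice V c C) : ContDiff ℝ 1 V := hV.smooth.of_le (by norm_cast)

theorem lb_pdV (hV : Nice V c C) (a : Fin n) : LB (pd a V) :=
  LB.of_continuous (contDiff_pd_top hV.smooth a).continuous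

/-- `div*_μ (τ∇u) = -Lu` a.e. -/
theorem div_fld (hV : Nice V c C) (h : MM ψ V c C M) {u : E n → ℝ} (hu : Test u) :
    ∀ᵐ x : E n, ∑ b, (pd b V x * fld ψ u b x - pd b (fld ψ u b) x) = -(Lop ψ u x) := by
  filter_upwards [XS.ae_good h, XS.ST' hV.toReg h] with x hx hS
  have hd : ∀ b, pd b (fld ψ u b) x
      = ∑ k, (pd b (fun z => tau ψ z b k) x * pd k u x + tau ψ x b k * pd b (pd k u) x) := by
    intro b
    have h1 : pd b (fld ψ u b) x = ∑ k, pd b (fun z => tau ψ z b k * pd k u z) x :=
      X.pd_sum (x := x) Finset.univ b fun k _ => (hx.2 b k).mul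
        ((contDiff_pd_top hu.1 k).differentiable (by simp) x)
    rw [h1]
    refine Finset.sum_congr rfl fun k _ => ?_
    exact X.pd_mul b (hx.2 b k) ((contDiff_pd_top hu.1 k).differentiable (by simp) x)
  have hsy : ∀ b k, (fun z => tau ψ z b k) = fun z => tau ψ z k b := fun b k => by
    funext z; exact XS.tau_symm h z b k
  have e1 : ∑ b, (pd b V x * fld ψ u b x - pd b (fld ψ u b) x)
      = ∑ k, ((∑ b, pd b V x * tau ψ x k b) - ∑ b, pd b (fun z => tau ψ z k b) x) * pd k u x
        - ∑ b, ∑ k, tau ψ x b k * pd b (pd k u) x := by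
    simp only [hd, fld, Finset.mul_sum, Finset.sum_mul, sub_mul, Finset.sum_sub_distrib,
      Finset.sum_add_distrib]
    rw [Finset.sum_comm, Finset.sum_comm (f := fun b k => pd b (fun z => tau ψ z b k) x * pd k u x)]
    have e2 : ∑ y, ∑ x_1, pd x_1 V x * (tau ψ x x_1 y * pd y u x)
        = ∑ y, ∑ b, pd b V x * tau ψ x y b * pd y u x := by
      refine Finset.sum_congr rfl fun y _ => Finset.sum_congr rfl fun b _ => ?_
      rw [XS.tau_symm h x b y]; ring
    have e3 : ∑ y, ∑ x_1, pd x_1 (fun z => tau ψ z x_1 y) x * pd y u x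
        = ∑ y, ∑ b, pd b (fun z => tau ψ z y b) x * pd y u x := by
      refine Finset.sum_congr rfl fun y _ => Finset.sum_congr rfl fun b _ => ?_
      rw [hsy b y]
    rw [e2, e3]; ring
  rw [e1]
  unfold Lop hess
  rw [Finset.sum_congr rfl fun k _ => by rw [hS k]]
  ring

/-- integration by parts against a locally Lipschitz function -/
theorem ibpL (hV : Nice V c C) (h : MM ψ V c C M) {u f : E n → ℝ} (hu : Test u) (hf : LL f) :
    Ex V (fun x => -(Lop ψ u x) * f x) = Ex V (fun x => ∑ b, pd b f x * fld ψ u b x) := by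
  unfold Ex
  congr 1
  have hs := fun b => ll_fld h hu b
  have hc := fun b => cs_fld (ψ := ψ) hu b
  have i1 : ∀ b, Integrable (fun x => f x * (pd b V x * fld ψ u b x - pd b (fld ψ u b) x)
      * Real.exp (-V x)) := fun b =>
    int_lc hV (hf.lb.mul (((lb_pdV hV b).mul (hs b).lb).sub (LB.pd (hs b) b)))
      (((hc b).mul_left _).sub ((hc b).pd b) |>.mul_left _)
  have i2 : ∀ b, Integrable (fun x => pd b f x * fld ψ u b x * Real.exp (-V x)) := fun b =>
    int_lc hV ((LB.pd hf b).mul (hs b).lb) ((hc b).mul_left _)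
  calc ∫ x, -(Lop ψ u x) * f x * Real.exp (-V x)
      = ∫ x, ∑ b, f x * (pd b V x * fld ψ u b x - pd b (fld ψ u b) x) * Real.exp (-V x) := by
        refine integral_congr_ae ?_
        filter_upwards [div_fld hV h hu] with x hx
        rw [← Finset.sum_mul, ← Finset.mul_sum, hx]; ring
    _ = ∑ b, ∫ x, f x * (pd b V x * fld ψ u b x - pd b (fld ψ u b) x) * Real.exp (-V x) :=
        integral_finsetSum _ fun b _ => i1 b
    _ = ∑ b, ∫ x, pd b f x * fld ψ u b x * Real.exp (-V x) := by
        refine Finset.sum_congr rfl fun b _ => ?_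
        exact (ibpw (V1 hV) hf (hs b) (Or.inr (hc b)) b).symm
    _ = ∫ x, (∑ b, pd b f x * fld ψ u b x) * Real.exp (-V x) := by
        rw [← integral_finsetSum _ fun b _ => i2 b]
        simp only [Finset.sum_mul]

/-- flat Bochner -/
theorem stmtFlat : StmtFlat := by
  intro n ψ V c C M hV h u hu
  have hs := fun b => ll_fld h hu b
  have hc := fun b => cs_fld (ψ := ψ) hu b
  have hpV := fun b => lb_pdV hV b
  have llV : ∀ b, LL (pd b V) := fun b => ll_smooth (contDiff_pd_top hV.smooth b)
  set s := fun b => fld ψ u b with hsdef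
  -- per pair
  have key : ∀ a b, ∫ x, (pd b V x * s b x - pd b (s b) x) * (pd a V x * s a x - pd a (s a) x)
      * Real.exp (-V x) = (∫ x, hess V x a b * s a x * s b x * Real.exp (-V x))
        + ∫ x, pd a (s b) x * pd b (s a) x * Real.exp (-V x) := by
    intro a b
    have hVs : LL (fun x => pd b V x * s b x) := (llV b).mul (hs b)
    have j1 : Integrable (fun x => (pd b V x * s b x) * (pd a V x * s a x - pd a (s a) x)
        * Real.exp (-V x)) :=
      int_lc hV (((hpV b).mul (hs b).lb).mul (((hpV a).mul (hs a).lb).sub (LB.pd (hs a) a)))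
        (((hc b).mul_left _).mul_right _)
    have j2 : Integrable (fun x => pd b (s b) x * (pd a V x * s a x - pd a (s a) x)
        * Real.exp (-V x)) :=
      int_lc hV ((LB.pd (hs b) b).mul (((hpV a).mul (hs a).lb).sub (LB.pd (hs a) a)))
        (((hc b).pd b).mul_right _)
    have j3 : Integrable (fun x => hess V x a b * s a x * s b x * Real.exp (-V x)) :=
      int_lc hV (((LB.of_continuous (contDiff_hess_top hV.smooth a b).continuous).mul (hs a).lb).mul
        (hs b).lb) ((hc b).mul_left _)
    have j4 : Integrable (fun x => pd b V x * pd a (s b) x * s a x * Real.exp (-V x)) :=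
      int_lc hV (((hpV b).mul (LB.pd (hs b) a)).mul (hs a).lb) ((hc a).mul_left _)
    have j5 : Integrable (fun x => pd a (s b) x * pd b (s a) x * Real.exp (-V x)) :=
      int_lc hV ((LB.pd (hs b) a).mul (LB.pd (hs a) b)) (((hc a).pd b).mul_left _)
    have e1 := ibpw (V1 hV) hVs (hs a) (Or.inr (hc a)) a
    have e2 := xxw (V1 hV) (hs b) (hc b) (hs a) (hc a) b a
    have e3 : ∫ x, pd a (fun x => pd b V x * s b x) x * s a x * Real.exp (-V x)
        = (∫ x, hess V x a b * s a x * s b x * Real.exp (-V x))
          + ∫ x, pd b V x * pd a (s b) x * s a x * Real.exp (-V x) := by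
      rw [← integral_add j3 j4]
      refine integral_congr_ae ?_
      filter_upwards [(hs b).ae_diff] with x hx
      rw [X.pd_mul a ((contDiff_pd_top hV.smooth b).differentiable (by simp) x) hx]
      unfold hess
      ring
    have e4 : ∫ x, pd a (s b) x * (pd b V x * s a x - pd b (s a) x) * Real.exp (-V x)
        = (∫ x, pd b V x * pd a (s b) x * s a x * Real.exp (-V x))
          - ∫ x, pd a (s b) x * pd b (s a) x * Real.exp (-V x) := by
      rw [← integral_sub j4 j5]
      refine integral_congr_ae (Eventually.of_forall fun x => ?_)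
      ring
    have e5 : ∫ x, (pd b V x * s b x - pd b (s b) x) * (pd a V x * s a x - pd a (s a) x)
        * Real.exp (-V x)
        = (∫ x, (pd b V x * s b x) * (pd a V x * s a x - pd a (s a) x) * Real.exp (-V x))
          - ∫ x, pd b (s b) x * (pd a V x * s a x - pd a (s a) x) * Real.exp (-V x) := by
      rw [← integral_sub j1 j2]
      refine integral_congr_ae (Eventually.of_forall fun x => ?_)
      ring
    rw [e5, e2, e4, ← e1, e3]
    ring
  have k1 : ∀ a b, Integrable (fun x => (pd b V x * s b x - pd b (s b) x)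
      * (pd a V x * s a x - pd a (s a) x) * Real.exp (-V x)) := fun a b =>
    int_lc hV ((((hpV b).mul (hs b).lb).sub (LB.pd (hs b) b)).mul
      (((hpV a).mul (hs a).lb).sub (LB.pd (hs a) a)))
      ((((hc b).mul_left _).sub ((hc b).pd b)).mul_right _)
  have k3 : ∀ a b, Integrable (fun x => hess V x a b * s a x * s b x * Real.exp (-V x)) := fun a b =>
    int_lc hV (((LB.of_continuous (contDiff_hess_top hV.smooth a b).continuous).mul (hs a).lb).mul
      (hs b).lb) ((hc b).mul_left _)
  have k5 : ∀ a b, Integrable (fun x => pd a (s b) x * pd b (s a) x * Real.exp (-V x)) := fun a b =>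
    int_lc hV ((LB.pd (hs b) a).mul (LB.pd (hs a) b)) (((hc a).pd b).mul_left _)
  unfold Ex
  rw [← add_div]
  congr 1
  calc ∫ x, Lop ψ u x ^ 2 * Real.exp (-V x)
      = ∫ x, ∑ a, ∑ b, (pd b V x * s b x - pd b (s b) x) * (pd a V x * s a x - pd a (s a) x)
          * Real.exp (-V x) := by
        refine integral_congr_ae ?_
        filter_upwards [div_fld hV h hu] with x hx
        have : ∑ a, ∑ b, (pd b V x * s b x - pd b (s b) x) * (pd a V x * s a x - pd a (s a) x)
          * Real.exp (-V x) = (∑ b, (pd b V x * s b x - pd b (s b) x))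
            * (∑ a, (pd a V x * s a x - pd a (s a) x)) * Real.exp (-V x) := by
          rw [Finset.sum_mul_sum, Finset.sum_mul, Finset.sum_comm]
          refine Finset.sum_congr rfl fun a _ => ?_
          rw [Finset.sum_mul]
        rw [this, hx]; ring
    _ = ∑ a, ∑ b, ∫ x, (pd b V x * s b x - pd b (s b) x) * (pd a V x * s a x - pd a (s a) x)
          * Real.exp (-V x) := by
        rw [integral_finsetSum _ fun a _ => integrable_finsetSum _ fun b _ => k1 a b]
        exact Finset.sum_congr rfl fun a _ => integral_finsetSum _ fun b _ => k1 a b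
    _ = (∑ a, ∑ b, ∫ x, hess V x a b * s a x * s b x * Real.exp (-V x))
        + ∑ a, ∑ b, ∫ x, pd a (s b) x * pd b (s a) x * Real.exp (-V x) := by
        simp only [key, Finset.sum_add_distrib]
    _ = _ := by
        congr 1
        · rw [← Finset.sum_congr rfl fun a _ => integral_finsetSum _ fun b _ => k3 a b,
            ← integral_finsetSum _ fun a _ => integrable_finsetSum _ fun b _ => k3 a b]
          simp only [Finset.sum_mul]
          rfl
        · rw [← Finset.sum_congr rfl fun a _ => integral_finsetSum _ fun b _ => k5 a b,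
            ← integral_finsetSum _ fun a _ => integrable_finsetSum _ fun b _ => k5 a b]
          simp only [Finset.sum_mul]
          rfl

end Vale.Agent.P227.M.DU
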