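import Vale.Agent.P227.M.DU591.Fm
import Vale.Agent.P227.M.LIN.TopG
import Vale.Agent.P227.M.LIN.H737

/-! # P227/M/DU591/Dens: `{Lu}` is dense in mean zero functions (helper591) -/

open MeasureTheory Filter
open scoped Topology

namespace Vale.Agent.P227.M.DU

variable {n : ℕ} {ψ V : E n → ℝ} {c C M : ℝ}

theorem dens (hI : StmtIBP) (hE : LIN.StmtESA) (hB : LIN.StmtBoch) (hC : LIN.StmtConst)
    (hV : Nice V c C) (h : MM ψ V c C M) {r : E n → ℝ} (hr : Gr r) (hr0 : Ex V r = 0) {ε : ℝ}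
    (hε : 0 < ε) : ∃ u, Test u ∧ Ex V (fun x => (Lop ψ u x + r x) ^ 2) ≤ ε := by
  obtain ⟨a, K, hτ⟩ := LIN.T592.tauF_of n ψ V c C M h
  set J := LIN.T592.Jm hV.toReg with hJ
  set A := LIN.T592.Am hV.toReg hτ with hA
  set R := (LIN.T592.memLp_gr hV.toReg hr).toLp r with hR
  have hZ := hV.toReg.Z_pos
  have hneg : ∀ f, inner ℝ (A f) (J f) ≤ 0 := fun f => LIN.T592.neg_AJ hI hV h hτ f
  have hden := LIN.T592.dense_JA hE hV h hτ
  have hcl : R ∈ (LinearMap.range A).topologicalClosure := by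
    rw [← Submodule.orthogonal_orthogonal_eq_closure, Submodule.mem_orthogonal']
    intro g hg
    have hg' : ∀ f, inner ℝ (A f) g = 0 := fun f =>
      (Submodule.mem_orthogonal _ _).1 hg _ (LinearMap.mem_range_self A f)
    obtain ⟨g', s, hs1, hs2⟩ := LIN.H737.Rel.total (J := J) (A := A) hneg hden g
    have t1 : Tendsto (fun m => inner ℝ (J (s m)) g) atTop (𝓝 (inner ℝ g' g)) :=
      hs1.inner tendsto_const_nhds
    have t2 : Tendsto (fun m => inner ℝ (J (s m) - A (s m)) g) atTop (𝓝 (inner ℝ g g)) :=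
      hs2.inner tendsto_const_nhds
    have t3 : (fun m => inner ℝ (J (s m) - A (s m)) g) = fun m => inner ℝ (J (s m)) g := by
      funext m
      rw [inner_sub_left, hg', sub_zero]
    rw [t3] at t2
    have e1 : inner ℝ g' g = inner ℝ g g := tendsto_nhds_unique t1 t2
    have e2 : ‖g'‖ ≤ ‖g‖ := le_of_tendsto_of_tendsto hs1.norm hs2.norm
      (Eventually.of_forall fun m => LIN.H737.norm_le hneg (s m))
    have e3 : g' = g := by
      have h1 : ‖g' - g‖ ^ 2 = ‖g'‖ ^ 2 - 2 * inner ℝ g' g + ‖g‖ ^ 2 := norm_sub_sq_real _ _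
      rw [e1, real_inner_self_eq_norm_sq] at h1
      have h2 : ‖g'‖ ^ 2 ≤ ‖g‖ ^ 2 := pow_le_pow_left₀ (norm_nonneg _) e2 2
      have h3 : ‖g' - g‖ ^ 2 ≤ 0 := by linarith
      have h4 : ‖g' - g‖ = 0 := by
        have := le_antisymm h3 (sq_nonneg _)
        exact pow_eq_zero_iff (two_ne_zero) |>.1 this
      exact sub_eq_zero.1 (norm_eq_zero.1 h4)
    have t4 : Tendsto (fun m => A (s m)) atTop (𝓝 0) := by
      have := hs1.sub hs2
      rw [e3, sub_self] at this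
      refine this.congr fun m => ?_
      abel
    rw [e3] at hs1
    exact LIN.T592.ker0 hC hB hV h hτ hr hr0 g s hs1 t4
  have hcl' : R ∈ closure ((LinearMap.range A : Submodule ℝ _) : Set _) := hcl
  have hδ : 0 < Real.sqrt ((∫ x, Real.exp (-V x)) * ε) := Real.sqrt_pos.2 (by positivity)
  obtain ⟨y, hy, hdist⟩ := Metric.mem_closure_iff.mp hcl' _ hδ
  obtain ⟨f, rfl⟩ := hy
  refine ⟨(-f).1, (-f).2, ?_⟩
  have e1 : A (-f) + R = ((LIN.T592.memLp_gr hV.toReg (LIN.T592.bl_Lop hτ (-f).2).gr).add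
      (LIN.T592.memLp_gr hV.toReg hr)).toLp (Lop ψ (-f).1 + r) := by
    exact (MemLp.toLp_add (LIN.T592.memLp_gr hV.toReg (LIN.T592.bl_Lop hτ (-f).2).gr)
      (LIN.T592.memLp_gr hV.toReg hr)).symm
  have e2 := LIN.T592.normsq_toLp hV.toReg ((LIN.T592.memLp_gr hV.toReg (LIN.T592.bl_Lop hτ (-f).2).gr).add
      (LIN.T592.memLp_gr hV.toReg hr))
  rw [← e1] at e2
  have e3 : ‖A (-f) + R‖ < Real.sqrt ((∫ x, Real.exp (-V x)) * ε) := by
    rw [dist_eq_norm] at hdist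
    have : A (-f) + R = R - A f := by rw [map_neg]; abel
    rw [this]; exact hdist
  have e4 : ‖A (-f) + R‖ ^ 2 ≤ (∫ x, Real.exp (-V x)) * ε := by
    have := pow_le_pow_left₀ (norm_nonneg _) e3.le 2
    rwa [Real.sq_sqrt (by positivity)] at this
  rw [e2] at e4
  exact le_of_mul_le_mul_left e4 hZ

end Vale.Agent.P227.M.DU
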