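import Vale.Agent.P227.M.DU591.Fm
import Vale.Agent.P227.M.LIN.TopG
import Vale.Agent.P227.M.LIN.Boch

/-! # P227/M/DU591/FB365: `E |F_M|² ≤ K E |Lω|²` (helper365) -/

open MeasureTheory Filter
open scoped Topology

namespace Vale.Agent.P227.M.DU.FB365

variable {n : ℕ} {ψ V : E n → ℝ} {c C M : ℝ}

open X

/-- `⟨∇V, x⟩ ≥ c‖x‖²` -/
theorem rad_lower (hV : Nice V c C) (x : E n) : c * ‖x‖ ^ 2 ≤ ∑ i, x i * pd i V x := by
  have hf : ContDiff ℝ 2 V := hV.toReg.C2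
  have h1 : Differentiable ℝ (fderiv ℝ V) :=
    (hf.fderiv_right (m := 1) (by norm_num)).differentiable (by norm_num)
  have hline : ∀ t : ℝ, HasDerivAt (fun t : ℝ => t • x) x t := fun t => by
    simpa using (hasDerivAt_id t).smul_const x
  have hg2 : ∀ t : ℝ, HasDerivAt (fun t : ℝ => fderiv ℝ V (t • x) x)
      ((fderiv ℝ (fderiv ℝ V) (t • x) x) x) t := fun t => by
    have h := (h1 (t • x)).hasFDerivAt.comp_hasDerivAt t (hline t)
    have h' := h.clm_apply (hasDerivAt_const t x)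
    simpa using h'
  have hm : MonotoneOn (fun t : ℝ => fderiv ℝ V (t • x) x - c * t * ‖x‖ ^ 2) (Set.Ici 0) := by
    refine monotoneOn_of_deriv_nonneg (convex_Ici 0) ?_ ?_ ?_
    · exact fun t _ => (((hg2 t).sub (((hasDerivAt_id t).const_mul c).mul_const
        (‖x‖ ^ 2))).continuousAt).continuousWithinAt
    · exact fun t _ => (((hg2 t).sub (((hasDerivAt_id t).const_mul c).mul_const
        (‖x‖ ^ 2))).differentiableAt).differentiableWithinAt
    · intro t _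
      have h := ((hg2 t).sub (((hasDerivAt_id t).const_mul c).mul_const (‖x‖ ^ 2))).deriv
      have h' : deriv (fun t : ℝ => fderiv ℝ V (t • x) x - c * t * ‖x‖ ^ 2) t
          = (fderiv ℝ (fderiv ℝ V) (t • x) x) x - c * 1 * ‖x‖ ^ 2 := h
      rw [h', ← qf_hess_eq hf]
      have := hV.lower (t • x) x
      linarith
  have hz : fderiv ℝ V 0 x = 0 := by
    have hd : DifferentiableAt ℝ V (-(0 : E n)) := (hf.differentiable (by norm_num)) _
    have h2 : HasFDerivAt (fun y : E n => -y) (-(ContinuousLinearMap.id ℝ (E n))) 0 :=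
      (hasFDerivAt_id (0 : E n)).neg
    have h3 : HasFDerivAt (fun y : E n => V (-y))
        ((fderiv ℝ V (-(0 : E n))).comp (-(ContinuousLinearMap.id ℝ (E n)))) 0 :=
      HasFDerivAt.comp (0 : E n) hd.hasFDerivAt h2
    have h4 : (fun y => V (-y)) = V := funext hV.even
    rw [h4] at h3
    have h5 := congrArg (fun L : E n →L[ℝ] ℝ => L x) h3.fderiv
    simp only [neg_zero, ContinuousLinearMap.comp_apply, neg_apply,
      ContinuousLinearMap.id_apply, map_neg] at h5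
    linarith
  have h := hm (Set.mem_Ici.2 le_rfl) (Set.mem_Ici.2 zero_le_one) zero_le_one
  simp only [zero_smul, mul_zero, zero_mul, sub_zero, one_smul, mul_one, hz] at h
  have h5 := fderiv_eq_sum V x x
  linarith

theorem gm_normsq : Loc.Gm (fun x : E n => ‖x‖ ^ 2) := Loc.Gm.of_gr (Gr.norm.pow 2)

theorem gm_test {g : E n → ℝ} (hg : Test g) : Loc.Gm g := Loc.Test.gm hg

/-- weighted inequality -/
theorem weighted (hV : Nice V c C) {g : E n → ℝ} (hg : Test g) :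
    Ex V (fun x => ‖x‖ ^ 2 * g x ^ 2) ≤ 2 * n / c * Ex V (fun x => g x ^ 2)
      + 4 / c ^ 2 * Ex V (fun x => ∑ i, pd i g x ^ 2) := by
  have hc := hV.toReg.c_pos
  have gg := (gm_test hg).sq
  have gp : Loc.Gm (fun x => ∑ i, pd i g x ^ 2) := Loc.Gm.fsum fun i => (gm_test (test_pd hg i)).sq
  have gn : Loc.Gm (fun x => ‖x‖ ^ 2 * g x ^ 2) := gm_normsq.mul gg
  have gV : ∀ i, Loc.Gm (pd i V) := fun i => Loc.Gm.of_gr (hV.toReg.gr_pd i)
  have gl : Loc.Gm (fun x => ∑ i, x i * pd i V x * g x ^ 2) :=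
    Loc.Gm.fsum fun i => ((Loc.Gm.coord i).mul (gV i)).mul gg
  -- integration by parts
  have key : ∀ i, Ex V (fun x => x i * pd i V x * g x ^ 2)
      = Ex V (fun x => g x ^ 2 + 2 * (x i * g x * pd i g x)) := by
    intro i
    have hxg : Test (fun x => x i * g x) := Loc.test_coord_mul hg i
    have h1 := ibpw (V1 hV) (ll_test hxg) (ll_test hg) (Or.inr (cs_test hg)) i
    have hp : ∀ x, pd i (fun x => x i * g x) x = g x + x i * pd i g x := by
      intro x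
      have hd : DifferentiableAt ℝ (fun z : E n => z i) x :=
        (EuclideanSpace.proj i : E n →L[ℝ] ℝ).differentiableAt
      have hp1 : pd i (fun z : E n => z i) x = 1 := by
        have : fderiv ℝ (fun z : E n => z i) x = (EuclideanSpace.proj i : E n →L[ℝ] ℝ) :=
          (EuclideanSpace.proj i : E n →L[ℝ] ℝ).fderiv
        unfold pd
        rw [this]
        simp [ei]
      rw [X.pd_mul i hd (hg.1.differentiable (by simp) x), hp1, one_mul]
    have g1 : Loc.Gm (fun x => g x ^ 2 + x i * g x * pd i g x) :=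
      gg.add (((Loc.Gm.coord i).mul (gm_test hg)).mul (gm_test (test_pd hg i)))
    have g2 : Loc.Gm (fun x => x i * pd i V x * g x ^ 2) := ((Loc.Gm.coord i).mul (gV i)).mul gg
    have g3 : Loc.Gm (fun x => x i * g x * pd i g x) :=
      ((Loc.Gm.coord i).mul (gm_test hg)).mul (gm_test (test_pd hg i))
    have e1 : ∫ x, pd i (fun x => x i * g x) x * g x * Real.exp (-V x)
        = ∫ x, (g x ^ 2 + x i * g x * pd i g x) * Real.exp (-V x) := by
      refine integral_congr_ae (Eventually.of_forall fun x => ?_)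
      simp only [hp]; ring
    have e2 : ∫ x, x i * g x * (pd i V x * g x - pd i g x) * Real.exp (-V x)
        = (∫ x, x i * pd i V x * g x ^ 2 * Real.exp (-V x))
          - ∫ x, x i * g x * pd i g x * Real.exp (-V x) := by
      rw [← integral_sub (g2.integrable hV.toReg) (g3.integrable hV.toReg)]
      refine integral_congr_ae (Eventually.of_forall fun x => ?_)
      ring
    rw [e1, e2] at h1
    have e3 : ∫ x, (g x ^ 2 + 2 * (x i * g x * pd i g x)) * Real.exp (-V x)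
        = (∫ x, (g x ^ 2 + x i * g x * pd i g x) * Real.exp (-V x))
          + ∫ x, x i * g x * pd i g x * Real.exp (-V x) := by
      rw [← integral_add (g1.integrable hV.toReg) (g3.integrable hV.toReg)]
      refine integral_congr_ae (Eventually.of_forall fun x => ?_)
      ring
    unfold Ex
    rw [e3, h1]
    congr 1
    ring
  have hlow : c * Ex V (fun x => ‖x‖ ^ 2 * g x ^ 2)
      ≤ Ex V (fun x => ∑ i, x i * pd i V x * g x ^ 2) := by
    rw [← Loc.Ex_const_mul]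
    refine Loc.Ex_mono hV.toReg (gn.const_mul c) gl fun x => ?_
    have h := mul_le_mul_of_nonneg_right (rad_lower hV x) (sq_nonneg (g x))
    rw [Finset.sum_mul] at h
    linarith
  have hup : Ex V (fun x => ∑ i, x i * pd i V x * g x ^ 2)
      ≤ n * Ex V (fun x => g x ^ 2) + (c / 2 * Ex V (fun x => ‖x‖ ^ 2 * g x ^ 2)
        + 2 / c * Ex V (fun x => ∑ i, pd i g x ^ 2)) := by
    rw [Loc.Ex_sum hV.toReg _ fun i _ => ((Loc.Gm.coord i).mul (gV i)).mul gg,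
      Finset.sum_congr rfl fun i _ => key i,
      ← Loc.Ex_sum hV.toReg _ fun i _ => gg.add
        ((((Loc.Gm.coord i).mul (gm_test hg)).mul (gm_test (test_pd hg i))).const_mul 2),
      ← Loc.Ex_const_mul, ← Loc.Ex_const_mul, ← Loc.Ex_const_mul,
      ← Loc.Ex_add hV.toReg (gn.const_mul _) (gp.const_mul _),
      ← Loc.Ex_add hV.toReg (gg.const_mul _) ((gn.const_mul _).add (gp.const_mul _))]
    refine Loc.Ex_mono hV.toReg (Loc.Gm.fsum fun i => gg.add
        ((((Loc.Gm.coord i).mul (gm_test hg)).mul (gm_test (test_pd hg i))).const_mul 2))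
        ((gg.const_mul _).add ((gn.const_mul _).add (gp.const_mul _))) fun x => ?_
    have h2 : ∀ i, 2 * (x i * g x * pd i g x) ≤ c / 2 * (x i ^ 2 * g x ^ 2)
        + 2 / c * pd i g x ^ 2 := by
      intro i
      have h3 : 0 ≤ (c / 2) * (x i * g x - 2 / c * pd i g x) ^ 2 := by positivity
      have h4 : (c / 2) * (x i * g x - 2 / c * pd i g x) ^ 2
          = c / 2 * (x i ^ 2 * g x ^ 2) + 2 / c * pd i g x ^ 2 - 2 * (x i * g x * pd i g x) := by
        field_simp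
        ring
      linarith
    calc ∑ i, (g x ^ 2 + 2 * (x i * g x * pd i g x))
        ≤ ∑ i, (g x ^ 2 + (c / 2 * (x i ^ 2 * g x ^ 2) + 2 / c * pd i g x ^ 2)) :=
          Finset.sum_le_sum fun i _ => by have := h2 i; linarith
      _ = n * g x ^ 2 + (c / 2 * (‖x‖ ^ 2 * g x ^ 2) + 2 / c * ∑ i, pd i g x ^ 2) := by
          rw [Finset.sum_add_distrib, Finset.sum_add_distrib, norm_sq_eq_sum, Finset.sum_mul,
            Finset.mul_sum, Finset.mul_sum]
          simp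
  have h := hlow.trans hup
  set A := Ex V (fun x => ‖x‖ ^ 2 * g x ^ 2)
  set G := Ex V (fun x => g x ^ 2)
  set D := Ex V (fun x => ∑ i, pd i g x ^ 2)
  have h5 : c / 2 * A ≤ n * G + 2 / c * D := by linarith
  have h6 : A ≤ 2 / c * (n * G + 2 / c * D) := by
    have h7 : 2 / c * (c / 2 * A) ≤ 2 / c * (n * G + 2 / c * D) :=
      mul_le_mul_of_nonneg_left h5 (by positivity)
    have h8 : 2 / c * (c / 2 * A) = A := by field_simp
    linarith
  have h9 : 2 / c * (n * G + 2 / c * D) = 2 * n / c * G + 4 / c ^ 2 * D := by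
    field_simp
    ring
  linarith

/-- `∑ |∂_j w_k|` -/
noncomputable def S1 (w : Fin n → E n → ℝ) (x : E n) : ℝ :=
  ∑ p : Fin n × Fin n, |pd p.2 (w p.1) x|

/-- `∑ |∂_i ∂_j w_k|` -/
noncomputable def D1 (w : Fin n → E n → ℝ) (x : E n) : ℝ :=
  ∑ p : Fin n × Fin n × Fin n, |hess (w p.1) x p.2.1 p.2.2|

theorem S1_nonneg (w : Fin n → E n → ℝ) (x : E n) : 0 ≤ S1 w x :=
  Finset.sum_nonneg fun _ _ => abs_nonneg _

theorem D1_nonneg (w : Fin n → E n → ℝ) (x : E n) : 0 ≤ D1 w x :=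
  Finset.sum_nonneg fun _ _ => abs_nonneg _

theorem le_S1 (w : Fin n → E n → ℝ) (x : E n) (j k : Fin n) : |pd j (w k) x| ≤ S1 w x :=
  Finset.single_le_sum (f := fun p : Fin n × Fin n => |pd p.2 (w p.1) x|)
    (fun _ _ => abs_nonneg _) (Finset.mem_univ (k, j))

theorem le_D1 (w : Fin n → E n → ℝ) (x : E n) (i j k : Fin n) : |hess (w k) x i j| ≤ D1 w x :=
  Finset.single_le_sum (f := fun p : Fin n × Fin n × Fin n => |hess (w p.1) x p.2.1 p.2.2|)
    (fun _ _ => abs_nonneg _) (Finset.mem_univ (k, i, j))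

theorem sq_S1 (w : Fin n → E n → ℝ) (x : E n) :
    S1 w x ^ 2 ≤ n ^ 2 * ∑ k, ∑ j, pd j (w k) x ^ 2 := by
  have h := sq_sum_le_card_mul_sum_sq (s := (Finset.univ : Finset (Fin n × Fin n)))
    (f := fun p => |pd p.2 (w p.1) x|)
  simp only [sq_abs, Fintype.sum_prod_type, Finset.card_univ, Fintype.card_prod,
    Fintype.card_fin] at h
  unfold S1
  rw [Fintype.sum_prod_type]
  refine h.trans (le_of_eq ?_)
  push_cast
  ring

theorem sq_D1 (w : Fin n → E n → ℝ) (x : E n) :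
    D1 w x ^ 2 ≤ n ^ 3 * ∑ k, ∑ i, ∑ j, hess (w k) x i j ^ 2 := by
  have h := sq_sum_le_card_mul_sum_sq (s := (Finset.univ : Finset (Fin n × Fin n × Fin n)))
    (f := fun p => |hess (w p.1) x p.2.1 p.2.2|)
  simp only [sq_abs, Fintype.sum_prod_type, Finset.card_univ, Fintype.card_prod,
    Fintype.card_fin] at h
  unfold D1
  simp only [Fintype.sum_prod_type]
  refine h.trans (le_of_eq ?_)
  push_cast
  ring

theorem abs_sD (w : Fin n → E n → ℝ) (x : E n) (a b : Fin n) : |sD w x a b| ≤ S1 w x := by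
  unfold sD
  rw [abs_div, abs_two]
  have h1 := le_S1 w x a b
  have h2 := le_S1 w x b a
  have h3 := abs_add_le (pd a (w b) x) (pd b (w a) x)
  linarith

theorem abs_pd_sD {w : Fin n → E n → ℝ} (hw : ∀ b, Test (w b)) (x : E n) (i a b : Fin n) :
    |pd i (fun z => sD w z a b) x| ≤ D1 w x := by
  have hd : ∀ a b, DifferentiableAt ℝ (pd a (w b)) x := fun a b =>
    (test_pd (hw b) a).1.differentiable (by simp) x
  have e : pd i (fun z => sD w z a b) x = (hess (w b) x i a + hess (w a) x i b) / 2 := by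
    have e1 : (fun z => sD w z a b) = fun z => (1 / 2 : ℝ) * (pd a (w b) z + pd b (w a) z) := by
      funext z; unfold sD; ring
    rw [e1]
    have e2 : pd i (fun z => (1 / 2 : ℝ) * (pd a (w b) z + pd b (w a) z)) x
        = (1 / 2 : ℝ) * pd i (fun z => pd a (w b) z + pd b (w a) z) x := by
      show fderiv ℝ (fun z => (1 / 2 : ℝ) * (pd a (w b) z + pd b (w a) z)) x (ei i)
        = (1 / 2 : ℝ) * (fderiv ℝ (fun z => pd a (w b) z + pd b (w a) z) x (ei i))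
      rw [fderiv_const_mul ((hd a b).fun_add (hd b a))]
      rfl
    rw [e2, X.pd_add i (hd a b) (hd b a)]
    unfold hess
    ring
  rw [e, abs_div, abs_two]
  have h1 := le_D1 w x i a b
  have h2 := le_D1 w x i b a
  have h3 := abs_add_le (hess (w b) x i a) (hess (w a) x i b)
  linarith

theorem pd_tau_le (h : MM ψ V c C M) : ∃ K, 0 ≤ K ∧ ∀ a i j x,
    |pd a (fun z => tau ψ z i j) x| ≤ K := by
  obtain ⟨K, hK, h1⟩ := XS.tau_lip h
  refine ⟨K, hK, fun a i j x => ?_⟩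
  have hl : LipschitzWith ⟨K, hK⟩ (fun z => tau ψ z i j) := LipschitzWith.of_dist_le_mul fun x y => by
    rw [Real.dist_eq, dist_eq_norm]; exact h1 i j x y
  exact (abs_pd_le_norm _ x a).trans (norm_fderiv_le_of_lipschitz ℝ hl)

theorem abs_mul3 {a b c A B C : ℝ} (ha : |a| ≤ A) (hb : |b| ≤ B) (hc : |c| ≤ C) :
    |a * b * c| ≤ A * B * C := by
  have hA := (abs_nonneg a).trans ha
  have hB := (abs_nonneg b).trans hb
  rw [abs_mul, abs_mul]
  exact mul_le_mul (mul_le_mul ha hb (abs_nonneg _) hA) hc (abs_nonneg _) (mul_nonneg hA hB)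

theorem abs_Mf {T : ℝ} (hT : ∀ x i j, |tau ψ x i j| ≤ T) (w : Fin n → E n → ℝ) (x : E n)
    (a b : Fin n) : |Mf ψ w x a b| ≤ n * (n * (T * S1 w x * T)) := by
  rw [Mf_apply]
  calc |∑ k, (∑ j, tau ψ x a j * sD w x j k) * tau ψ x k b|
      ≤ ∑ k, |(∑ j, tau ψ x a j * sD w x j k) * tau ψ x k b| := Finset.abs_sum_le_sum_abs _ _
    _ ≤ ∑ _k : Fin n, (n : ℝ) * (T * S1 w x * T) := by
        refine Finset.sum_le_sum fun k _ => ?_
        rw [Finset.sum_mul]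
        refine (Finset.abs_sum_le_sum_abs _ _).trans ?_
        calc ∑ j, |tau ψ x a j * sD w x j k * tau ψ x k b|
            ≤ ∑ _j : Fin n, T * S1 w x * T := Finset.sum_le_sum fun j _ =>
              abs_mul3 (hT x a j) (abs_sD w x j k) (hT x k b)
          _ = (n : ℝ) * (T * S1 w x * T) := by simp
    _ = n * (n * (T * S1 w x * T)) := by simp

theorem abs_pd_Mf {T K : ℝ} (hT : ∀ x i j, |tau ψ x i j| ≤ T)
    (hK : ∀ a i j x, |pd a (fun z => tau ψ z i j) x| ≤ K) {w : Fin n → E n → ℝ}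
    (hw : ∀ b, Test (w b)) {x : E n} (hx : ∀ i j, DifferentiableAt ℝ (fun y => tau ψ y i j) x)
    (i a b : Fin n) : |pd i (fun z => Mf ψ w z a b) x| ≤
      n * (n * (K * S1 w x * T + T * D1 w x * T + T * S1 w x * K)) := by
  have hs : ∀ j k, DifferentiableAt ℝ (fun z => sD w z j k) x := fun j k =>
    (test_sD hw j k).1.differentiable (by simp) x
  have hts : ∀ a j k, DifferentiableAt ℝ (fun z => tau ψ z a j * sD w z j k) x := fun a j k =>
    (hx a j).fun_mul (hs j k)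
  have e : pd i (fun z => Mf ψ w z a b) x = ∑ k, ∑ j,
      (pd i (fun z => tau ψ z a j) x * sD w x j k * tau ψ x k b
        + tau ψ x a j * pd i (fun z => sD w z j k) x * tau ψ x k b
        + tau ψ x a j * sD w x j k * pd i (fun z => tau ψ z k b) x) := by
    have e1 : (fun z => Mf ψ w z a b) = fun z => ∑ k, ∑ j, tau ψ z a j * sD w z j k * tau ψ z k b := by
      funext z
      rw [Mf_apply]
      simp only [Finset.sum_mul]
    rw [e1, X.pd_sum Finset.univ i fun k _ => DifferentiableAt.fun_sum fun j _ =>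
      (hts a j k).fun_mul (hx k b)]
    refine Finset.sum_congr rfl fun k _ => ?_
    rw [X.pd_sum Finset.univ i fun j _ => (hts a j k).fun_mul (hx k b)]
    refine Finset.sum_congr rfl fun j _ => ?_
    rw [X.pd_mul i (hts a j k) (hx k b), X.pd_mul i (hx a j) (hs j k)]
    ring
  rw [e]
  calc _ ≤ ∑ k, |∑ j, (pd i (fun z => tau ψ z a j) x * sD w x j k * tau ψ x k b
        + tau ψ x a j * pd i (fun z => sD w z j k) x * tau ψ x k b
        + tau ψ x a j * sD w x j k * pd i (fun z => tau ψ z k b) x)| :=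
        Finset.abs_sum_le_sum_abs _ _
    _ ≤ ∑ _k : Fin n, (n : ℝ) * (K * S1 w x * T + T * D1 w x * T + T * S1 w x * K) := by
        refine Finset.sum_le_sum fun k _ => ?_
        refine (Finset.abs_sum_le_sum_abs _ _).trans ?_
        calc _ ≤ ∑ _j : Fin n, (K * S1 w x * T + T * D1 w x * T + T * S1 w x * K) := by
              refine Finset.sum_le_sum fun j _ => ?_
              refine (abs_add_le _ _).trans (add_le_add ((abs_add_le _ _).trans (add_le_add ?_ ?_)) ?_)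
              · exact abs_mul3 (hK i a j x) (abs_sD w x j k) (hT x k b)
              · exact abs_mul3 (hT x a j) (abs_pd_sD hw x i j k) (hT x k b)
              · exact abs_mul3 (hT x a j) (abs_sD w x j k) (hK i k b x)
          _ = _ := by rw [Finset.sum_const, Finset.card_univ, Fintype.card_fin, nsmul_eq_mul]
    _ = _ := by rw [Finset.sum_const, Finset.card_univ, Fintype.card_fin, nsmul_eq_mul]

theorem pdV_le (hV : Nice V c C) : ∃ B, 0 ≤ B ∧ ∀ a x, |pd a V x| ≤ B * (1 + ‖x‖) := by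
  obtain ⟨B, hB⟩ := hV.toReg.bdd 2 le_rfl
  have hB0 : 0 ≤ B := (norm_nonneg _).trans (hB 0)
  refine ⟨‖fderiv ℝ V 0‖ + B, by positivity, fun a x => ?_⟩
  have h1 := abs_pd_le_norm V x a
  have h2 := norm_fderiv_le hV.toReg.C2 hB x
  have h3 := norm_nonneg x
  have h4 := norm_nonneg (fderiv ℝ V 0)
  nlinarith

theorem num_sq {P N r S D Q1 Q2 F : ℝ} (hN : 0 ≤ N) (hr : 0 ≤ r) (hS0 : 0 ≤ S)
    (hD0 : 0 ≤ D) (hQ1 : 0 ≤ Q1) (hQ2 : 0 ≤ Q2) (hS : S ^ 2 ≤ N ^ 2 * Q1) (hD : D ^ 2 ≤ N ^ 3 * Q2)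
    (hF : |F| ≤ P * ((1 + r) * S + D)) :
    F ^ 2 ≤ P ^ 2 * ((4 * N ^ 2 + 2 * N ^ 3) * ((1 + r ^ 2) * Q1 + Q2)) := by
  have h1 : F ^ 2 ≤ (P * ((1 + r) * S + D)) ^ 2 :=
    sq_le_sq' (by have := neg_le_of_abs_le hF; linarith) (le_of_abs_le hF)
  have h2 : ((1 + r) * S + D) ^ 2 ≤ 4 * (1 + r ^ 2) * S ^ 2 + 2 * D ^ 2 := by
    nlinarith [sq_nonneg ((1 + r) * S - D), sq_nonneg ((1 - r) * S)]
  have h3 : 4 * (1 + r ^ 2) * S ^ 2 ≤ 4 * (1 + r ^ 2) * (N ^ 2 * Q1) :=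
    mul_le_mul_of_nonneg_left hS (by positivity)
  have h4 : 4 * (1 + r ^ 2) * (N ^ 2 * Q1) + 2 * (N ^ 3 * Q2)
      ≤ (4 * N ^ 2 + 2 * N ^ 3) * ((1 + r ^ 2) * Q1 + Q2) := by
    have e5 : (4 * N ^ 2 + 2 * N ^ 3) * ((1 + r ^ 2) * Q1 + Q2)
        - (4 * (1 + r ^ 2) * (N ^ 2 * Q1) + 2 * (N ^ 3 * Q2))
        = 4 * N ^ 2 * Q2 + 2 * N ^ 3 * ((1 + r ^ 2) * Q1) := by ring
    have e6 : 0 ≤ 4 * N ^ 2 * Q2 + 2 * N ^ 3 * ((1 + r ^ 2) * Q1) := by positivity
    linarith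
  calc F ^ 2 ≤ (P * ((1 + r) * S + D)) ^ 2 := h1
    _ = P ^ 2 * ((1 + r) * S + D) ^ 2 := by ring
    _ ≤ _ := mul_le_mul_of_nonneg_left (by linarith) (by positivity)

theorem num_lin {P N r S D B T K : ℝ} (hN : 0 ≤ N) (hr : 0 ≤ r) (hS0 : 0 ≤ S)
    (hD0 : 0 ≤ D) (hB : 0 ≤ B) (hT : 0 ≤ T) (hK : 0 ≤ K)
    (hP : P = N * (N * N) * (B * T * T + 2 * (K * T) + T * T)) :
    N * (B * (1 + r) * (N * (N * (T * S * T))) + N * (N * (K * S * T + T * D * T + T * S * K)))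
      ≤ P * ((1 + r) * S + D) := by
  have e1 : P * ((1 + r) * S + D)
      - N * (B * (1 + r) * (N * (N * (T * S * T))) + N * (N * (K * S * T + T * D * T + T * S * K)))
      = N * (N * N) * ((2 * (K * T)) * (r * S) + T * T * ((1 + r) * S)
        + (B * T * T + 2 * (K * T)) * D) := by
    rw [hP]; ring
  have e2 : 0 ≤ N * (N * N) * ((2 * (K * T)) * (r * S)
      + T * T * ((1 + r) * S) + (B * T * T + 2 * (K * T)) * D) := by
    positivity
  linarith

/-- pointwise bound of `F_M` -/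
theorem fm_pt (hV : Nice V c C) (h : MM ψ V c C M) : ∃ K, 0 ≤ K ∧
    ∀ w : Fin n → E n → ℝ, (∀ b, Test (w b)) → ∀ᵐ x : E n,
      ∑ b, FM ψ V w b x ^ 2 ≤ K * ((∑ k, ∑ j, (pd j (w k) x ^ 2 + ‖x‖ ^ 2 * pd j (w k) x ^ 2))
        + ∑ k, ∑ i, ∑ j, hess (w k) x i j ^ 2) := by
  have hc := h.c_pos
  obtain ⟨K, hK0, hK⟩ := pd_tau_le h
  obtain ⟨B, hB0, hB⟩ := pdV_le hV
  set T := c⁻¹ with hTd
  have hT0 : 0 < T := inv_pos.2 hc
  have hT : ∀ x i j, |tau ψ x i j| ≤ T := XS.tau_bdd h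
  set N : ℝ := (n : ℝ) with hN
  have hN0 : 0 ≤ N := Nat.cast_nonneg n
  set P : ℝ := N * (N * N) * (B * T * T + 2 * (K * T) + T * T) with hP
  have hP0 : 0 ≤ P := by positivity
  refine ⟨N * (P ^ 2 * (4 * N ^ 2 + 2 * N ^ 3)), by positivity, fun w hw => ?_⟩
  filter_upwards [XS.ae_good h] with x hx
  have hS0 := S1_nonneg w x
  have hD0 := D1_nonneg w x
  have hx0 := norm_nonneg x
  have hb : ∀ b, |FM ψ V w b x| ≤ P * ((1 + ‖x‖) * S1 w x + D1 w x) := by
    intro b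
    unfold FM
    calc _ ≤ ∑ a, |pd a V x * Mf ψ w x a b - pd a (fun z => Mf ψ w z a b) x| :=
          Finset.abs_sum_le_sum_abs _ _
      _ ≤ ∑ _a : Fin n, (B * (1 + ‖x‖) * (N * (N * (T * S1 w x * T)))
            + N * (N * (K * S1 w x * T + T * D1 w x * T + T * S1 w x * K))) := by
          refine Finset.sum_le_sum fun a _ => ?_
          refine (abs_sub _ _).trans (add_le_add ?_ ?_)
          · rw [abs_mul]
            exact mul_le_mul (hB a x) (abs_Mf hT w x a b) (abs_nonneg _) (by positivity)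
          · exact abs_pd_Mf hT hK hw hx.2 a a b
      _ = N * (B * (1 + ‖x‖) * (N * (N * (T * S1 w x * T)))
            + N * (N * (K * S1 w x * T + T * D1 w x * T + T * S1 w x * K))) := by
          rw [Finset.sum_const, Finset.card_univ, Fintype.card_fin, nsmul_eq_mul]
      _ ≤ P * ((1 + ‖x‖) * S1 w x + D1 w x) := num_lin hN0 hx0 hS0 hD0 hB0 hT0.le hK0 hP
  have hS := sq_S1 w x
  have hD := sq_D1 w x
  set Q1 := ∑ k, ∑ j, pd j (w k) x ^ 2 with hQ1
  set Q2 := ∑ k, ∑ i, ∑ j, hess (w k) x i j ^ 2 with hQ2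
  have hQ10 : 0 ≤ Q1 := Finset.sum_nonneg fun _ _ => Finset.sum_nonneg fun _ _ => sq_nonneg _
  have hQ20 : 0 ≤ Q2 := Finset.sum_nonneg fun _ _ => Finset.sum_nonneg fun _ _ =>
    Finset.sum_nonneg fun _ _ => sq_nonneg _
  have e3 : (∑ k, ∑ j, (pd j (w k) x ^ 2 + ‖x‖ ^ 2 * pd j (w k) x ^ 2)) = (1 + ‖x‖ ^ 2) * Q1 := by
    simp only [hQ1, Finset.sum_add_distrib, ← Finset.mul_sum]
    ring
  rw [e3]
  have hb2 : ∀ b, FM ψ V w b x ^ 2 ≤ P ^ 2 * ((4 * N ^ 2 + 2 * N ^ 3) * ((1 + ‖x‖ ^ 2) * Q1 + Q2)) :=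
    fun b => num_sq hN0 hx0 hS0 hD0 hQ10 hQ20 hS hD (hb b)
  calc ∑ b, FM ψ V w b x ^ 2
      ≤ ∑ _b : Fin n, P ^ 2 * ((4 * N ^ 2 + 2 * N ^ 3) * ((1 + ‖x‖ ^ 2) * Q1 + Q2)) :=
        Finset.sum_le_sum fun b _ => hb2 b
    _ = N * (P ^ 2 * (4 * N ^ 2 + 2 * N ^ 3)) * ((1 + ‖x‖ ^ 2) * Q1 + Q2) := by
        rw [Finset.sum_const, Finset.card_univ, Fintype.card_fin, nsmul_eq_mul]; ring

end Vale.Agent.P227.M.DU.FB365

namespace Vale.Agent.P227.M.DU

variable {n : ℕ} {ψ V : E n → ℝ} {c C M : ℝ}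

open FB365

/-- `E |F_M|² ≤ K E |Lω|²` -/
theorem fb_bound (hV : Nice V c C) (h : MM ψ V c C M) : ∃ K : ℝ, 0 ≤ K ∧
    ∀ w : Fin n → E n → ℝ, (∀ b, Test (w b)) →
      Ex V (fun x => ∑ b, FM ψ V w b x ^ 2) ≤ K * Ex V (fun x => ∑ b, Lop ψ (w b) x ^ 2) := by
  have hc := hV.toReg.c_pos
  obtain ⟨K, hK0, hK⟩ := fm_pt hV h
  obtain ⟨a, K', hτ⟩ := LIN.T592.tauF_of n ψ V c C M h
  have ha := hτ.a_pos
  refine ⟨K * ((1 + 2 * n / c) / a + (1 + 4 / c ^ 2) / a ^ 2), by positivity, fun w hw => ?_⟩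
  have g1 : ∀ k j, Loc.Gm (fun x => pd j (w k) x ^ 2) := fun k j => (gm_test (test_pd (hw k) j)).sq
  have g2 : ∀ k j, Loc.Gm (fun x => ‖x‖ ^ 2 * pd j (w k) x ^ 2) := fun k j =>
    gm_normsq.mul (g1 k j)
  have g3 : ∀ k i j, Loc.Gm (fun x => hess (w k) x i j ^ 2) := fun k i j =>
    (gm_test (Loc.test_hess (hw k) i j)).sq
  have g4 : Loc.Gm (fun x => (∑ k, ∑ j, (pd j (w k) x ^ 2 + ‖x‖ ^ 2 * pd j (w k) x ^ 2))
        + ∑ k, ∑ i, ∑ j, hess (w k) x i j ^ 2) :=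
    (Loc.Gm.fsum fun k => Loc.Gm.fsum fun j => (g1 k j).add (g2 k j)).add
      (Loc.Gm.fsum fun k => Loc.Gm.fsum fun i => Loc.Gm.fsum fun j => g3 k i j)
  -- Bochner
  have hB : ∀ k, Ex V (fun x => ∑ j, pd j (w k) x ^ 2) ≤ a⁻¹ * Ex V (fun x => Lop ψ (w k) x ^ 2) ∧
      Ex V (fun x => ∑ i, ∑ j, hess (w k) x i j ^ 2) ≤ (a ^ 2)⁻¹ * Ex V (fun x => Lop ψ (w k) x ^ 2) := by
    intro k
    have h1 := LIN.T592.boch_id LIN.stmtBoch hV h hτ (hw k)
    have h2 : a * Ex V (fun x => ∑ j, pd j (w k) x ^ 2) ≤ Ex V (LIN.T592.Gf ψ (w k) (w k)) := by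
      rw [← Loc.Ex_const_mul]
      refine Loc.Ex_mono hV.toReg ((Loc.Gm.fsum fun j => g1 k j).const_mul a)
        (Loc.Gm.of_gr (LIN.T592.gr_Gf hτ (hw k) (hw k))) fun x => LIN.T592.Gf_ge hτ (w k) x
    have h3 : 0 ≤ Ex V (fun x => ∑ i, ∑ j, hess (w k) x i j ^ 2) :=
      Loc.Ex_nonneg hV.toReg fun x => Finset.sum_nonneg fun _ _ =>
        Finset.sum_nonneg fun _ _ => sq_nonneg _
    have h4 : 0 ≤ Ex V (fun x => ∑ j, pd j (w k) x ^ 2) :=
      Loc.Ex_nonneg hV.toReg fun x => Finset.sum_nonneg fun _ _ => sq_nonneg _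
    constructor
    · rw [inv_mul_eq_div, le_div_iff₀ ha]
      have : 0 ≤ a ^ 2 * Ex V (fun x => ∑ i, ∑ j, hess (w k) x i j ^ 2) := by positivity
      linarith
    · rw [inv_mul_eq_div, le_div_iff₀ (by positivity)]
      have : 0 ≤ a * Ex V (fun x => ∑ j, pd j (w k) x ^ 2) := by positivity
      linarith
  -- first bound
  have hfirst : Ex V (fun x => ∑ b, FM ψ V w b x ^ 2)
      ≤ K * Ex V (fun x => (∑ k, ∑ j, (pd j (w k) x ^ 2 + ‖x‖ ^ 2 * pd j (w k) x ^ 2))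
        + ∑ k, ∑ i, ∑ j, hess (w k) x i j ^ 2) := by
    rw [← Loc.Ex_const_mul]
    unfold Ex
    refine div_le_div_of_nonneg_right ?_ hV.toReg.Z_pos.le
    refine integral_mono_of_nonneg (Eventually.of_forall fun x => ?_)
      ((g4.const_mul K).integrable hV.toReg) ?_
    · exact mul_nonneg (Finset.sum_nonneg fun _ _ => sq_nonneg _) (Real.exp_pos _).le
    · filter_upwards [hK w hw] with x hx
      exact mul_le_mul_of_nonneg_right hx (Real.exp_pos _).le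
  have hsplit : Ex V (fun x => (∑ k, ∑ j, (pd j (w k) x ^ 2 + ‖x‖ ^ 2 * pd j (w k) x ^ 2))
        + ∑ k, ∑ i, ∑ j, hess (w k) x i j ^ 2)
      = (∑ k, ∑ j, (Ex V (fun x => pd j (w k) x ^ 2) + Ex V (fun x => ‖x‖ ^ 2 * pd j (w k) x ^ 2)))
        + ∑ k, Ex V (fun x => ∑ i, ∑ j, hess (w k) x i j ^ 2) := by
    rw [Loc.Ex_add hV.toReg (Loc.Gm.fsum fun k => Loc.Gm.fsum fun j => (g1 k j).add (g2 k j))
      (Loc.Gm.fsum fun k => Loc.Gm.fsum fun i => Loc.Gm.fsum fun j => g3 k i j),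
      Loc.Ex_sum hV.toReg _ fun k _ => Loc.Gm.fsum fun j => (g1 k j).add (g2 k j),
      Loc.Ex_sum hV.toReg _ fun k _ => Loc.Gm.fsum fun i => Loc.Gm.fsum fun j => g3 k i j]
    congr 1
    refine Finset.sum_congr rfl fun k _ => ?_
    rw [Loc.Ex_sum hV.toReg _ fun j _ => (g1 k j).add (g2 k j)]
    exact Finset.sum_congr rfl fun j _ => Loc.Ex_add hV.toReg (g1 k j) (g2 k j)
  have hw2 : ∀ k, ∑ j, (Ex V (fun x => pd j (w k) x ^ 2) + Ex V (fun x => ‖x‖ ^ 2 * pd j (w k) x ^ 2))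
      ≤ (1 + 2 * n / c) * Ex V (fun x => ∑ j, pd j (w k) x ^ 2)
        + 4 / c ^ 2 * Ex V (fun x => ∑ i, ∑ j, hess (w k) x i j ^ 2) := by
    intro k
    have h1 : ∀ j, Ex V (fun x => pd j (w k) x ^ 2) + Ex V (fun x => ‖x‖ ^ 2 * pd j (w k) x ^ 2)
        ≤ (1 + 2 * n / c) * Ex V (fun x => pd j (w k) x ^ 2)
          + 4 / c ^ 2 * Ex V (fun x => ∑ i, hess (w k) x i j ^ 2) := fun j => by
      have h2 := weighted hV (test_pd (hw k) j)
      have h3 : Ex V (fun x => ∑ i, pd i (pd j (w k)) x ^ 2)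
          = Ex V (fun x => ∑ i, hess (w k) x i j ^ 2) := rfl
      rw [h3] at h2
      linarith
    refine (Finset.sum_le_sum fun j _ => h1 j).trans (le_of_eq ?_)
    rw [Finset.sum_add_distrib, ← Finset.mul_sum, ← Finset.mul_sum,
      ← Loc.Ex_sum hV.toReg _ fun j _ => g1 k j,
      ← Loc.Ex_sum hV.toReg _ fun j _ => Loc.Gm.fsum fun i => g3 k i j]
    congr 3
    funext x
    exact Finset.sum_comm
  have hL : Ex V (fun x => ∑ b, Lop ψ (w b) x ^ 2) = ∑ b, Ex V (fun x => Lop ψ (w b) x ^ 2) :=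
    Loc.Ex_sum hV.toReg _ fun b _ => (Loc.gm_Lop h (hw b)).sq
  rw [hL]
  refine hfirst.trans ?_
  rw [mul_assoc]
  refine mul_le_mul_of_nonneg_left ?_ hK0
  rw [hsplit, ← Finset.sum_add_distrib, Finset.mul_sum]
  refine Finset.sum_le_sum fun k _ => ?_
  obtain ⟨b1, b2⟩ := hB k
  have h0 := hw2 k
  have h5 : (1 + 2 * n / c) * Ex V (fun x => ∑ j, pd j (w k) x ^ 2)
      ≤ (1 + 2 * n / c) * (a⁻¹ * Ex V (fun x => Lop ψ (w k) x ^ 2)) :=
    mul_le_mul_of_nonneg_left b1 (by positivity)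
  have h6 : (1 + 4 / c ^ 2) * Ex V (fun x => ∑ i, ∑ j, hess (w k) x i j ^ 2)
      ≤ (1 + 4 / c ^ 2) * ((a ^ 2)⁻¹ * Ex V (fun x => Lop ψ (w k) x ^ 2)) :=
    mul_le_mul_of_nonneg_left b2 (by positivity)
  have h7 : ((1 + 2 * n / c) / a + (1 + 4 / c ^ 2) / a ^ 2) * Ex V (fun x => Lop ψ (w k) x ^ 2)
      = (1 + 2 * n / c) * (a⁻¹ * Ex V (fun x => Lop ψ (w k) x ^ 2))
        + (1 + 4 / c ^ 2) * ((a ^ 2)⁻¹ * Ex V (fun x => Lop ψ (w k) x ^ 2)) := by
    rw [div_eq_mul_inv, div_eq_mul_inv]; ring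
  rw [h7]
  linarith

end Vale.Agent.P227.M.DU
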