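import Vale.Agent.P227.M.DU591.Calc

/-! # P227/M/DU591/Fm: the matrix field `M = τ sym(D_x ω) τ` and `F_M` (helper591) -/

open MeasureTheory Filter
open scoped Topology

namespace Vale.Agent.P227.M.DU

variable {n : ℕ} {ψ V : E n → ℝ} {c C M : ℝ}

open X

theorem test_sD {w : Fin n → E n → ℝ} (hw : ∀ b, Test (w b)) (a b : Fin n) :
    Test (fun x => sD w x a b) := by
  have h1 := test_pd (hw b) a
  have h2 := test_pd (hw a) b
  refine ⟨(h1.1.add h2.1).div_const 2, ?_⟩
  have h3 : HasCompactSupport (fun x => pd a (w b) x + pd b (w a) x) := h1.2.add h2.2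
  exact h3.comp_left (g := fun t : ℝ => t / 2) (by simp)

theorem sD_symm (w : Fin n → E n → ℝ) (x : E n) (a b : Fin n) : sD w x a b = sD w x b a := by
  unfold sD
  rw [add_comm]

theorem Mf_apply (w : Fin n → E n → ℝ) (x : E n) (a b : Fin n) :
    Mf ψ w x a b = ∑ k, (∑ j, tau ψ x a j * sD w x j k) * tau ψ x k b := by
  simp only [Mf, Matrix.mul_apply]

theorem ll_Mf (h : MM ψ V c C M) {w : Fin n → E n → ℝ} (hw : ∀ b, Test (w b)) (a b : Fin n) :
    LL (fun x => Mf ψ w x a b) := by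
  simp only [Mf_apply]
  exact LL.sum fun k _ => (LL.sum fun j _ => (ll_tau h a j).mul (ll_test (test_sD hw j k))).mul
    (ll_tau h k b)

theorem cs_Mf {w : Fin n → E n → ℝ} (hw : ∀ b, Test (w b)) (a b : Fin n) :
    CS (fun x => Mf ψ w x a b) := by
  simp only [Mf_apply]
  exact CS.sum fun k _ => (CS.sum fun j _ => (cs_test (test_sD hw j k)).mul_left _).mul_right _

theorem Mf_symm (h : MM ψ V c C M) (w : Fin n → E n → ℝ) (x : E n) (a b : Fin n) :
    Mf ψ w x a b = Mf ψ w x b a := by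
  rw [Mf_apply, Mf_apply]
  simp only [Finset.sum_mul]
  rw [Finset.sum_comm]
  refine Finset.sum_congr rfl fun i _ => Finset.sum_congr rfl fun j _ => ?_
  rw [XS.tau_symm h x a i, XS.tau_symm h x j b, sD_symm w x i j]
  ring

theorem lb_FM (hV : Nice V c C) (h : MM ψ V c C M) {w : Fin n → E n → ℝ} (hw : ∀ b, Test (w b))
    (b : Fin n) : LB (FM ψ V w b) :=
  LB.sum fun a _ => ((lb_pdV hV a).mul (ll_Mf h hw a b).lb).sub (LB.pd (ll_Mf h hw a b) a)

theorem cs_FM {w : Fin n → E n → ℝ} (hw : ∀ b, Test (w b)) (b : Fin n) : CS (FM ψ V w b) :=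
  CS.sum fun a _ => ((cs_Mf (ψ := ψ) hw a b).mul_left _).sub ((cs_Mf (ψ := ψ) hw a b).pd a)

/-- `E ⟨g, F_M⟩ = E tr (D_x g M)` for locally Lipschitz `g` -/
theorem int_FM (hV : Nice V c C) (h : MM ψ V c C M) {w : Fin n → E n → ℝ} (hw : ∀ b, Test (w b))
    {g : Fin n → E n → ℝ} (hg : ∀ b, LL (g b)) :
    Ex V (fun x => ∑ b, g b x * FM ψ V w b x)
      = Ex V (fun x => ∑ b, ∑ a, pd a (g b) x * Mf ψ w x a b) := by
  unfold Ex
  congr 1
  have hm := fun a b => ll_Mf h hw a b
  have hc := fun a b => cs_Mf (ψ := ψ) hw a b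
  have i1 : ∀ b a, Integrable (fun x => g b x * (pd a V x * Mf ψ w x a b
      - pd a (fun z => Mf ψ w z a b) x) * Real.exp (-V x)) := fun b a =>
    int_lc hV ((hg b).lb.mul (((lb_pdV hV a).mul (hm a b).lb).sub (LB.pd (hm a b) a)))
      ((((hc a b).mul_left _).sub ((hc a b).pd a)).mul_left _)
  have i2 : ∀ b a, Integrable (fun x => pd a (g b) x * Mf ψ w x a b * Real.exp (-V x)) := fun b a =>
    int_lc hV ((LB.pd (hg b) a).mul (hm a b).lb) ((hc a b).mul_left _)
  calc ∫ x, (∑ b, g b x * FM ψ V w b x) * Real.exp (-V x)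
      = ∫ x, ∑ b, ∑ a, g b x * (pd a V x * Mf ψ w x a b - pd a (fun z => Mf ψ w z a b) x)
          * Real.exp (-V x) := by
        simp only [FM, Finset.mul_sum, Finset.sum_mul]
    _ = ∑ b, ∑ a, ∫ x, g b x * (pd a V x * Mf ψ w x a b - pd a (fun z => Mf ψ w z a b) x)
          * Real.exp (-V x) := by
        rw [integral_finsetSum _ fun b _ => integrable_finsetSum _ fun a _ => i1 b a]
        exact Finset.sum_congr rfl fun b _ => integral_finsetSum _ fun a _ => i1 b a
    _ = ∑ b, ∑ a, ∫ x, pd a (g b) x * Mf ψ w x a b * Real.exp (-V x) := by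
        refine Finset.sum_congr rfl fun b _ => Finset.sum_congr rfl fun a _ => ?_
        exact (ibpw (V1 hV) (hg b) (hm a b) (Or.inr (hc a b)) a).symm
    _ = ∫ x, (∑ b, ∑ a, pd a (g b) x * Mf ψ w x a b) * Real.exp (-V x) := by
        rw [← Finset.sum_congr rfl fun b _ => integral_finsetSum _ fun a _ => i2 b a,
          ← integral_finsetSum _ fun b _ => integrable_finsetSum _ fun a _ => i2 b a]
        simp only [Finset.sum_mul]

/-- the matrix `D_x s` -/
noncomputable def Js (ψ u : E n → ℝ) (x : E n) : Matrix (Fin n) (Fin n) ℝ :=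
  fun a b => pd a (fld ψ u b) x

theorem pd_fld {u : E n → ℝ} (hu : Test u) {x : E n}
    (hx : ∀ i j, DifferentiableAt ℝ (fun y => tau ψ y i j) x) (a b : Fin n) :
    pd a (fld ψ u b) x
      = ∑ k, (pd a (fun z => tau ψ z b k) x * pd k u x + tau ψ x b k * hess u x a k) := by
  have h1 : pd a (fld ψ u b) x = ∑ k, pd a (fun z => tau ψ z b k * pd k u z) x :=
    X.pd_sum (x := x) Finset.univ a fun k _ => (hx b k).mul
      ((contDiff_pd_top hu.1 k).differentiable (by simp) x)
  rw [h1]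
  refine Finset.sum_congr rfl fun k _ => ?_
  exact X.pd_mul a (hx b k) ((contDiff_pd_top hu.1 k).differentiable (by simp) x)

/-- `τ D_x s` is symmetric a.e. -/
theorem tauJ_symm (h : MM ψ V c C M) {u : E n → ℝ} (hu : Test u) :
    ∀ᵐ x : E n, ∀ d b, ∑ a, tau ψ x d a * Js ψ u x a b = ∑ a, tau ψ x b a * Js ψ u x a d := by
  filter_upwards [XS.ae_good h, XS.SY h] with x hx hS
  have key : ∀ d b, ∑ a, tau ψ x d a * Js ψ u x a b
      = ∑ k, (∑ a, tau ψ x d a * pd a (fun z => tau ψ z b k) x) * pd k u x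
        + ∑ a, ∑ k, tau ψ x d a * (tau ψ x b k * hess u x a k) := by
    intro d b
    have e1 : ∀ a, tau ψ x d a * Js ψ u x a b
        = (∑ k, tau ψ x d a * pd a (fun z => tau ψ z b k) x * pd k u x)
          + ∑ k, tau ψ x d a * (tau ψ x b k * hess u x a k) := by
      intro a
      unfold Js
      rw [pd_fld hu hx.2 a b, Finset.sum_add_distrib, mul_add, Finset.mul_sum, Finset.mul_sum]
      congr 1
      refine Finset.sum_congr rfl fun k _ => ?_
      ring
    rw [Finset.sum_congr rfl fun a _ => e1 a, Finset.sum_add_distrib]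
    congr 1
    rw [Finset.sum_comm]
    refine Finset.sum_congr rfl fun k _ => ?_
    rw [Finset.sum_mul]
  intro d b
  rw [key d b, key b d]
  congr 1
  · refine Finset.sum_congr rfl fun k _ => ?_
    rw [hS d b k]
  · rw [Finset.sum_comm]
    refine Finset.sum_congr rfl fun k _ => Finset.sum_congr rfl fun a _ => ?_
    rw [hess_symm (hu.1.of_le (by norm_cast)) x a k]
    ring

/-- pointwise: `2 tr (τ D_x s N) ≤ tr (τNτN) + tr (D_x s)²` -/
theorem pt_JN (h : MM ψ V c C M) {x : E n} {J N : Matrix (Fin n) (Fin n) ℝ}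
    (hN : ∀ a b, N a b = N b a) (hP : ∀ d b, ∑ a, tau ψ x d a * J a b = ∑ a, tau ψ x b a * J a d) :
    0 ≤ (tau ψ x * N * tau ψ x * N).trace - 2 * (tau ψ x * J * N).trace + (J * J).trace := by
  set T := tau ψ x with hT
  set S := hess ψ x with hS
  have hSpd : S.PosDef := Loc.hess_psi_posDef h x
  have hdet : IsUnit S.det := (Matrix.isUnit_iff_isUnit_det S).1 hSpd.isUnit
  have hST : S * T = 1 := Matrix.mul_nonsing_inv _ hdet
  have hTS : T * S = 1 := Matrix.nonsing_inv_mul _ hdet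
  set Q := T * J - T * N * T with hQ
  have hTt : T.transpose = T := by
    ext i j; exact XS.tau_symm h x j i
  have hNt : N.transpose = N := by
    ext i j; exact hN j i
  have hPt : (T * J).transpose = T * J := by
    ext i j
    rw [Matrix.transpose_apply, Matrix.mul_apply, Matrix.mul_apply]
    exact hP j i
  have hQt : Q.transpose = Q := by
    rw [hQ, Matrix.transpose_sub, hPt, Matrix.transpose_mul, Matrix.transpose_mul, hTt, hNt,
      Matrix.mul_assoc]
  have hQh : Q.conjTranspose = Q := by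
    rw [Matrix.conjTranspose_eq_transpose_of_trivial, hQt]
  have h1 : 0 ≤ (S * (Q * S * Q)).trace := by
    have h2 := hSpd.posSemidef.mul_mul_conjTranspose_same Q
    rw [hQh] at h2
    exact Loc.trace_mul_psd hSpd.posSemidef h2
  have e1 : S * Q = J - N * T := by
    rw [hQ, Matrix.mul_sub, ← Matrix.mul_assoc, hST, Matrix.one_mul, ← Matrix.mul_assoc,
      ← Matrix.mul_assoc, hST, Matrix.one_mul]
  have e2 : S * (Q * S * Q) = (J - N * T) * (J - N * T) := by
    rw [← e1]
    simp only [Matrix.mul_assoc]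
  rw [e2] at h1
  have e3 : ((J - N * T) * (J - N * T)).trace
      = (T * N * T * N).trace - 2 * (T * J * N).trace + (J * J).trace := by
    have a1 : (N * T * (N * T)).trace = (T * N * T * N).trace := by
      rw [show N * T * (N * T) = N * (T * N * T) by simp only [Matrix.mul_assoc],
        Matrix.trace_mul_comm]
    have a2 : (J * (N * T)).trace = (T * J * N).trace := by
      rw [← Matrix.mul_assoc, Matrix.trace_mul_comm, Matrix.mul_assoc]
    have a3 : (N * T * J).trace = (T * J * N).trace := by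
      rw [Matrix.mul_assoc, Matrix.trace_mul_comm]
    rw [Matrix.sub_mul, Matrix.mul_sub, Matrix.mul_sub, Matrix.trace_sub, Matrix.trace_sub,
      Matrix.trace_sub, a1, a2, a3]
    ring
  rw [e3] at h1
  exact h1

theorem trace3 (T J N : Matrix (Fin n) (Fin n) ℝ) :
    (T * J * N).trace = ∑ d, ∑ b, (∑ a, T d a * J a b) * N b d := by
  simp only [Matrix.trace, Matrix.diag_apply, Matrix.mul_apply]

/-- `E ⟨-Lω, s⟩ = E tr (τ D_x s N)` -/
theorem int_Ls (hV : Nice V c C) (h : MM ψ V c C M) {w : Fin n → E n → ℝ} (hw : ∀ b, Test (w b))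
    {u : E n → ℝ} (hu : Test u) :
    Ex V (fun x => ∑ b, -(Lop ψ (w b) x) * fld ψ u b x)
      = Ex V (fun x => (tau ψ x * Js ψ u x * sD w x).trace) := by
  have g1 : ∀ b, Loc.Gm (fun x => -(Lop ψ (w b) x) * fld ψ u b x) := fun b =>
    (Loc.gm_Lop h (hw b)).neg.mul (Loc.gm_fld h (Loc.BL.of_test hu) b)
  have gs : ∀ b, Loc.BL (fld ψ u b) := fun b =>
    Loc.BL.fsum fun j => (Loc.bl_tau h b j).mul (Loc.BL.of_test (test_pd hu j))
  have g2 : ∀ b, Loc.Gm (fun x => ∑ a, pd a (fld ψ u b) x * fld ψ (w b) a x) := fun b =>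
    Loc.Gm.fsum fun a => (Loc.gm_pd_of_bl (gs b) a).mul (Loc.gm_fld h (Loc.BL.of_test (hw b)) a)
  rw [Loc.Ex_sum hV.toReg _ fun b _ => g1 b,
    Finset.sum_congr rfl fun b _ => ibpL hV h (hw b) (ll_fld h hu b),
    ← Loc.Ex_sum hV.toReg _ fun b _ => g2 b]
  refine Loc.Ex_congr_ae ?_
  filter_upwards [tauJ_symm h hu] with x hx
  rw [trace3]
  set P := fun d b => ∑ a, tau ψ x d a * Js ψ u x a b with hP
  have e1 : ∑ b, ∑ a, pd a (fld ψ u b) x * fld ψ (w b) a x = ∑ b, ∑ d, P d b * pd d (w b) x := by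
    refine Finset.sum_congr rfl fun b _ => ?_
    simp only [hP, fld, Finset.mul_sum, Finset.sum_mul, Js]
    rw [Finset.sum_comm]
    refine Finset.sum_congr rfl fun d _ => Finset.sum_congr rfl fun a _ => ?_
    rw [XS.tau_symm h x a d]
    ring
  have e2 : ∑ d, ∑ b, P d b * sD w x b d
      = (∑ d, ∑ b, P d b * pd d (w b) x) / 2 + (∑ d, ∑ b, P d b * pd b (w d) x) / 2 := by
    rw [← add_div, ← Finset.sum_add_distrib, Finset.sum_div]
    refine Finset.sum_congr rfl fun d _ => ?_
    rw [← Finset.sum_add_distrib, Finset.sum_div]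
    refine Finset.sum_congr rfl fun b _ => ?_
    unfold sD
    ring
  have e3 : ∑ d, ∑ b, P d b * pd b (w d) x = ∑ b, ∑ d, P d b * pd d (w b) x := by
    refine Finset.sum_congr rfl fun d _ => Finset.sum_congr rfl fun b _ => ?_
    have : P d b = P b d := hx d b
    rw [this]
  have e4 : ∑ d, ∑ b, P d b * pd d (w b) x = ∑ b, ∑ d, P d b * pd d (w b) x := Finset.sum_comm
  rw [e1, e2, e3, e4]
  ring

end Vale.Agent.P227.M.DU
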