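import Vale.Agent.P227.M.DU591.Fm

/-! # P227/M/DU591/Ineq: the inequality for fixed test fields `ω` and `u` (helper591) -/

open MeasureTheory Filter
open scoped Topology

namespace Vale.Agent.P227.M.DU

variable {n : ℕ} {ψ V : E n → ℝ} {c C M : ℝ}

open X

theorem gm_of_lbcs {f : E n → ℝ} (hf : LB f) (hc : CS f) : Loc.Gm f := by
  obtain ⟨R, hR⟩ := hc
  obtain ⟨hm, hb⟩ := hf
  obtain ⟨B, hB⟩ := hb R
  refine Loc.Gm.of_bound (B := |B|) hm.aestronglyMeasurable fun x => ?_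
  by_cases hx : ‖x‖ ≤ R
  · exact (hB x hx).trans (le_abs_self B)
  · rw [hR x (not_le.1 hx), abs_zero]
    exact abs_nonneg _

theorem gm_FM (hV : Nice V c C) (h : MM ψ V c C M) {w : Fin n → E n → ℝ} (hw : ∀ b, Test (w b))
    (b : Fin n) : Loc.Gm (FM ψ V w b) := gm_of_lbcs (lb_FM hV h hw b) (cs_FM hw b)

/-- `G_b = ∑ ρ_j ∂_b W_j` -/
noncomputable def GG {J : ℕ} (W : Fin J → E n → ℝ) (ρ : Fin J → ℝ) (b : Fin n) (x : E n) : ℝ :=
  ∑ j, ρ j * pd b (W j) x

theorem smooth_GG {J : ℕ} {W : Fin J → E n → ℝ} (hW : ∀ j, Piece (W j)) (ρ : Fin J → ℝ)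
    (b : Fin n) : ContDiff ℝ (⊤ : ℕ∞) (GG W ρ b) :=
  ContDiff.sum fun j _ => contDiff_const.mul (contDiff_pd_top (hW j).smooth b)

theorem pd_GG {J : ℕ} {W : Fin J → E n → ℝ} (hW : ∀ j, Piece (W j)) (ρ : Fin J → ℝ)
    (a b : Fin n) (x : E n) : pd a (GG W ρ b) x = ∑ j, ρ j * hess (W j) x a b := by
  have hd : ∀ j, DifferentiableAt ℝ (pd b (W j)) x := fun j =>
    (contDiff_pd_top (hW j).smooth b).differentiable (by simp) x
  have h1 : pd a (GG W ρ b) x = ∑ j, pd a (fun z => ρ j * pd b (W j) z) x :=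
    X.pd_sum (x := x) Finset.univ a fun j _ => (hd j).const_mul (ρ j)
  rw [h1]
  refine Finset.sum_congr rfl fun j _ => ?_
  show fderiv ℝ (fun z => ρ j * pd b (W j) z) x (ei a) = _
  rw [fderiv_const_mul (hd j)]
  rfl

theorem gm_GG {J : ℕ} {W : Fin J → E n → ℝ} (hW : ∀ j, Piece (W j)) (ρ : Fin J → ℝ)
    (b : Fin n) : Loc.Gm (GG W ρ b) :=
  Loc.Gm.fsum fun j => (Loc.Gm.of_gr ((hW j).gr_pd b)).const_mul (ρ j)

theorem main_ineqD (hst : StmtStein) (hibp : StmtIBP) (hkey : StmtKeyD)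
    (hV : Nice V c C) (h : MM ψ V c C M) {J : ℕ} {W : Fin J → E n → ℝ}
    (hW : ∀ j, Piece (W j)) (hVW : V = fun x => ∑ j, W j x) (ρ : Fin J → ℝ)
    {w : Fin n → E n → ℝ} (hw : ∀ b, Test (w b)) {u : E n → ℝ} (hu : Test u) :
    0 ≤ (∑ j, ρ j ^ 2 * Ex V (fun x => (∑ i, x i * pd i (W j) x) + qf (hess (W j) x) x))
      + 2 * Ex V (fun x => Lop ψ u x * Loc.ff W ρ x) + Ex V (fun x => (Lop ψ u x) ^ 2)
      + 2 * Ex V (fun x => ∑ b, (-(Lop ψ (w b) x) - GG W ρ b x) * (FM ψ V w b x - fld ψ u b x)) := by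
  have hR : Reg V c C := hV.toReg
  have hsu : ∀ b, Loc.Gm (fld ψ u b) := fun b => Loc.gm_fld h (Loc.BL.of_test hu) b
  have hpW : ∀ j b, Loc.Gm (pd b (W j)) := fun j b => Loc.Gm.of_gr ((hW j).gr_pd b)
  have gT := Loc.gmM_tau h
  have gN : Loc.GmM (sD w) := fun a b => Loc.Test.gm (test_sD hw a b)
  have gH : ∀ j, Loc.GmM (hess (W j)) := fun j => Loc.gmM_hess (hW j)
  have gJ : Loc.GmM (Js ψ u) := fun a b =>
    gm_of_lbcs (LB.pd (ll_fld h hu b) a) ((cs_fld (ψ := ψ) hu b).pd a)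
  have hNh : ∀ x, (sD w x).IsHermitian := fun x => by
    ext i j
    simp [sD_symm w x i j]
  -- trace part
  have hA : ∀ j, 0 ≤ ρ j ^ 2 * Ex V (fun x => (hess (W j) x * tau ψ x).trace)
      - 2 * ρ j * Ex V (fun x => (hess (W j) x * tau ψ x * sD w x * tau ψ x).trace)
      + Ex V (fun x => (hess (W j) x * tau ψ x * sD w x * tau ψ x * sD w x * tau ψ x).trace) :=
    fun j => by
      have g1 := ((gH j).mul gT).trace
      have g2 := ((((gH j).mul gT).mul gN).mul gT).trace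
      have g3 := ((((((gH j).mul gT).mul gN).mul gT).mul gN).mul gT).trace
      have h0 := Loc.Ex_nonneg hR fun x => Loc.trace_square_nonneg
        (Loc.posSemidef_of_qf (Loc.hess_symm (hW j).C2 x) ((hW j).psd x))
        (Loc.tau_posDef h x).posSemidef (hNh x) (ρ j)
      rw [Loc.Ex_add hR ((g1.const_mul _).sub (g2.const_mul _)) g3,
        Loc.Ex_sub hR (g1.const_mul _) (g2.const_mul _), Loc.Ex_const_mul, Loc.Ex_const_mul] at h0
      exact h0
  have hB : ∀ j, 0 ≤ ρ j ^ 2 * Ex V (fun x => qf (hess (W j) x) x)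
      - 2 * ρ j * Ex V (fun x => ∑ b, (∑ i, hess (W j) x b i * x i) * fld ψ u b x)
      + Ex V (fun x => ∑ a, ∑ b, hess (W j) x a b * fld ψ u a x * fld ψ u b x) :=
    fun j => by
      have g1 := Loc.gm_qf (hW j)
      have g2 : Loc.Gm (fun x => ∑ b, (∑ i, hess (W j) x b i * x i) * fld ψ u b x) :=
        Loc.Gm.fsum fun b => (Loc.Gm.fsum fun i => (gH j b i).mul (Loc.Gm.coord i)).mul (hsu b)
      have g3 : Loc.Gm (fun x => ∑ a, ∑ b, hess (W j) x a b * fld ψ u a x * fld ψ u b x) :=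
        Loc.Gm.fsum fun a => Loc.Gm.fsum fun b => ((gH j a b).mul (hsu a)).mul (hsu b)
      have h0 := Loc.Ex_nonneg hR fun x => Loc.pt_vec (hW j) (ρ j) x (fun b => fld ψ u b x)
      rw [Loc.Ex_add hR ((g1.const_mul _).sub (g2.const_mul _)) g3,
        Loc.Ex_sub hR (g1.const_mul _) (g2.const_mul _), Loc.Ex_const_mul, Loc.Ex_const_mul] at h0
      exact h0
  -- sums of the last terms
  have hHV : ∀ x, hess V x = ∑ j, hess (W j) x := fun x => by
    rw [hVW]
    exact Loc.hess_sum (fun j => (hW j).smooth) x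
  have hC1 : Ex V (fun x => (hess V x * tau ψ x * sD w x * tau ψ x * sD w x * tau ψ x).trace)
      = ∑ j, Ex V (fun x =>
        (hess (W j) x * tau ψ x * sD w x * tau ψ x * sD w x * tau ψ x).trace) := by
    rw [← Loc.Ex_sum hR _ fun j _ => ((((((gH j).mul gT).mul gN).mul gT).mul gN).mul gT).trace]
    congr 1
    funext x
    rw [hHV x]
    simp only [Finset.sum_mul, Matrix.trace_sum]
  have hC2 : Ex V (fun x => ∑ a, ∑ b, hess V x a b * fld ψ u a x * fld ψ u b x)
      = ∑ j, Ex V (fun x => ∑ a, ∑ b, hess (W j) x a b * fld ψ u a x * fld ψ u b x) := by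
    rw [← Loc.Ex_sum hR _ fun j _ => Loc.Gm.fsum fun a => Loc.Gm.fsum fun b =>
      ((gH j a b).mul (hsu a)).mul (hsu b)]
    congr 1
    funext x
    rw [hHV x]
    simp only [Matrix.sum_apply, Finset.sum_mul]
    calc _ = ∑ a, ∑ j, ∑ b, hess (W j) x a b * fld ψ u a x * fld ψ u b x :=
          Finset.sum_congr rfl fun a _ => Finset.sum_comm
      _ = _ := Finset.sum_comm
  -- the mixed square
  have hJN : 0 ≤ Ex V (fun x => (tau ψ x * sD w x * tau ψ x * sD w x).trace)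
      - 2 * Ex V (fun x => (tau ψ x * Js ψ u x * sD w x).trace)
      + Ex V (fun x => (Js ψ u x * Js ψ u x).trace) := by
    have g1 := (((gT.mul gN).mul gT).mul gN).trace
    have g2 := ((gT.mul gJ).mul gN).trace
    have g3 := (gJ.mul gJ).trace
    rw [← Loc.Ex_const_mul, ← Loc.Ex_sub hR g1 (g2.const_mul _),
      ← Loc.Ex_add hR (g1.sub (g2.const_mul _)) g3]
    unfold Ex
    refine div_nonneg (integral_nonneg_of_ae ?_) hR.Z_pos.le
    filter_upwards [tauJ_symm h hu] with x hx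
    exact mul_nonneg (pt_JN h (sD_symm w x) hx) (Real.exp_pos _).le
  have hK := hkey n ψ V c C M hV h w hw
  have hF := stmtFlat n ψ V c C M hV h u hu
  have hJJ : Ex V (fun x => (Js ψ u x * Js ψ u x).trace)
      = Ex V (fun x => ∑ a, ∑ b, pd a (fld ψ u b) x * pd b (fld ψ u a) x) := by
    simp only [Matrix.trace, Matrix.diag_apply, Matrix.mul_apply, Js]
  have hLs := int_Ls hV h hw hu
  rw [hC1] at hK
  rw [hC2, ← hJJ] at hF
  rw [← hLs] at hJN
  -- `E ⟨G, F_M⟩`
  have hGF : Ex V (fun x => ∑ b, GG W ρ b x * FM ψ V w b x)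
      = ∑ j, ρ j * Ex V (fun x => (hess (W j) x * tau ψ x * sD w x * tau ψ x).trace) := by
    rw [int_FM hV h hw fun b => ll_smooth (smooth_GG hW ρ b)]
    have e1 : ∀ x, ∑ b, ∑ a, pd a (GG W ρ b) x * Mf ψ w x a b
        = ∑ j, ρ j * (hess (W j) x * tau ψ x * sD w x * tau ψ x).trace := fun x => by
      have e2 : ∀ j, (hess (W j) x * tau ψ x * sD w x * tau ψ x).trace
          = ∑ b, ∑ a, hess (W j) x a b * Mf ψ w x a b := fun j => by
        have : hess (W j) x * tau ψ x * sD w x * tau ψ x = hess (W j) x * Mf ψ w x := by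
          unfold Mf; simp only [Matrix.mul_assoc]
        rw [this, Matrix.trace]
        simp only [Matrix.diag_apply, Matrix.mul_apply]
        rw [Finset.sum_comm]
        refine Finset.sum_congr rfl fun b _ => Finset.sum_congr rfl fun a _ => ?_
        rw [Mf_symm h w x b a]
      simp only [e2, pd_GG hW ρ, Finset.sum_mul, Finset.mul_sum]
      symm
      calc ∑ j, ∑ b, ∑ a, ρ j * (hess (W j) x a b * Mf ψ w x a b)
          = ∑ b, ∑ j, ∑ a, ρ j * (hess (W j) x a b * Mf ψ w x a b) := Finset.sum_comm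
        _ = ∑ b, ∑ a, ∑ j, ρ j * (hess (W j) x a b * Mf ψ w x a b) :=
            Finset.sum_congr rfl fun b _ => Finset.sum_comm
        _ = _ := Finset.sum_congr rfl fun b _ => Finset.sum_congr rfl fun a _ =>
            Finset.sum_congr rfl fun j _ => by ring
    simp only [e1]
    rw [Loc.Ex_sum hR _ fun j _ => ((((gH j).mul gT).mul gN).mul gT).trace.const_mul (ρ j)]
    exact Finset.sum_congr rfl fun j _ => Loc.Ex_const_mul _ _
  -- linear terms
  have hone : ∀ j, Ex V (fun x => ∑ b, pd b (W j) x * fld ψ u b x)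
      + Ex V (fun x => ∑ b, (∑ i, hess (W j) x b i * x i) * fld ψ u b x)
      = - Ex V (fun x => Lop ψ u x * Loc.rad (W j) x) := fun j => by
    have h1 := hibp n ψ V c C M hV h u (Loc.rad (W j)) hu (Loc.rad_smooth (hW j).smooth)
    have e1 : Ex V (fun x => -(Lop ψ u x) * Loc.rad (W j) x)
        = - Ex V (fun x => Lop ψ u x * Loc.rad (W j) x) := by
      rw [← Loc.Ex_neg]
      simp only [neg_mul]
    have e2 : Ex V (fun x => ∑ b, pd b (Loc.rad (W j)) x * fld ψ u b x)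
        = Ex V (fun x => ∑ b, pd b (W j) x * fld ψ u b x)
          + Ex V (fun x => ∑ b, (∑ i, hess (W j) x b i * x i) * fld ψ u b x) := by
      rw [← Loc.Ex_add hR (Loc.Gm.fsum fun b => (hpW j b).mul (hsu b))
        (Loc.Gm.fsum fun b => (Loc.Gm.fsum fun i => (gH j b i).mul (Loc.Gm.coord i)).mul (hsu b))]
      congr 1
      funext x
      rw [← Finset.sum_add_distrib]
      refine Finset.sum_congr rfl fun b _ => ?_
      rw [Loc.pd_rad (hW j).smooth]
      ring
    rw [← e2, ← h1, e1]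
  have hD : Ex V (fun x => Lop ψ u x * Loc.ff W ρ x)
      = ∑ j, ρ j * Ex V (fun x => Lop ψ u x * Loc.rad (W j) x) := by
    have : ∀ j, ρ j * Ex V (fun x => Lop ψ u x * Loc.rad (W j) x)
        = Ex V (fun x => ρ j * (Lop ψ u x * Loc.rad (W j) x)) := fun j => (Loc.Ex_const_mul _ _).symm
    rw [Finset.sum_congr rfl fun j _ => this j,
      ← Loc.Ex_sum hR _ fun j _ => ((Loc.gm_Lop h hu).mul (Loc.gm_rad (hW j))).const_mul _]
    congr 1
    funext x
    simp only [Loc.ff, Finset.mul_sum, Loc.rad]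
    refine Finset.sum_congr rfl fun j _ => Finset.sum_congr rfl fun i _ => ?_
    ring
  have hGs : Ex V (fun x => ∑ b, GG W ρ b x * fld ψ u b x)
      = ∑ j, ρ j * Ex V (fun x => ∑ b, pd b (W j) x * fld ψ u b x) := by
    have : ∀ j, ρ j * Ex V (fun x => ∑ b, pd b (W j) x * fld ψ u b x)
        = Ex V (fun x => ρ j * (∑ b, pd b (W j) x * fld ψ u b x)) :=
      fun j => (Loc.Ex_const_mul _ _).symm
    rw [Finset.sum_congr rfl fun j _ => this j,
      ← Loc.Ex_sum hR _ fun j _ => (Loc.Gm.fsum fun b => (hpW j b).mul (hsu b)).const_mul _]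
    congr 1
    funext x
    simp only [GG, Finset.sum_mul, Finset.mul_sum]
    rw [Finset.sum_comm]
    refine Finset.sum_congr rfl fun j _ => Finset.sum_congr rfl fun i _ => ?_
    ring
  have hF' : ∀ j, ρ j ^ 2 * Ex V (fun x => (∑ i, x i * pd i (W j) x) + qf (hess (W j) x) x)
      = ρ j ^ 2 * Ex V (fun x => (hess (W j) x * tau ψ x).trace)
        + ρ j ^ 2 * Ex V (fun x => qf (hess (W j) x) x) := fun j => by
    have h1 : Ex V (fun x => (∑ i, x i * pd i (W j) x) + qf (hess (W j) x) x)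
        = Ex V (Loc.rad (W j)) + Ex V (fun x => qf (hess (W j) x) x) :=
      Loc.Ex_add hR (Loc.gm_rad (hW j)) (Loc.gm_qf (hW j))
    rw [hst n ψ V c C M hV h (W j) (hW j), h1, mul_add]
    rfl
  -- expansion of the error term
  have hErr : Ex V (fun x => ∑ b, (-(Lop ψ (w b) x) - GG W ρ b x) * (FM ψ V w b x - fld ψ u b x))
      = Ex V (fun x => ∑ b, -(Lop ψ (w b) x) * FM ψ V w b x)
        - Ex V (fun x => ∑ b, GG W ρ b x * FM ψ V w b x)
        - Ex V (fun x => ∑ b, -(Lop ψ (w b) x) * fld ψ u b x)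
        + Ex V (fun x => ∑ b, GG W ρ b x * fld ψ u b x) := by
    have gF := fun b => gm_FM hV h hw b
    have gL : ∀ b, Loc.Gm (fun x => -(Lop ψ (w b) x)) := fun b => (Loc.gm_Lop h (hw b)).neg
    have gG := fun b => gm_GG hW ρ b
    have g1 : Loc.Gm (fun x => ∑ b, -(Lop ψ (w b) x) * FM ψ V w b x) :=
      Loc.Gm.fsum fun b => (gL b).mul (gF b)
    have g2 : Loc.Gm (fun x => ∑ b, GG W ρ b x * FM ψ V w b x) :=
      Loc.Gm.fsum fun b => (gG b).mul (gF b)
    have g3 : Loc.Gm (fun x => ∑ b, -(Lop ψ (w b) x) * fld ψ u b x) :=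
      Loc.Gm.fsum fun b => (gL b).mul (hsu b)
    have g4 : Loc.Gm (fun x => ∑ b, GG W ρ b x * fld ψ u b x) :=
      Loc.Gm.fsum fun b => (gG b).mul (hsu b)
    rw [← Loc.Ex_sub hR g1 g2, ← Loc.Ex_sub hR (g1.sub g2) g3,
      ← Loc.Ex_add hR ((g1.sub g2).sub g3) g4]
    congr 1
    funext x
    rw [← Finset.sum_sub_distrib, ← Finset.sum_sub_distrib, ← Finset.sum_add_distrib]
    refine Finset.sum_congr rfl fun b _ => ?_
    ring
  have hj : ∀ j, 0 ≤ ρ j ^ 2 * Ex V (fun x => (∑ i, x i * pd i (W j) x) + qf (hess (W j) x) x)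
      - 2 * (ρ j * Ex V (fun x => (hess (W j) x * tau ψ x * sD w x * tau ψ x).trace))
      + 2 * (ρ j * Ex V (fun x => Lop ψ u x * Loc.rad (W j) x))
      + 2 * (ρ j * Ex V (fun x => ∑ b, pd b (W j) x * fld ψ u b x))
      + Ex V (fun x => (hess (W j) x * tau ψ x * sD w x * tau ψ x * sD w x * tau ψ x).trace)
      + Ex V (fun x => ∑ a, ∑ b, hess (W j) x a b * fld ψ u a x * fld ψ u b x) := fun j => by
    have h1 := hA j
    have h2 := hB j
    have h3 := hone j
    rw [hF' j]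
    have h4 : ρ j * (Ex V (fun x => ∑ b, pd b (W j) x * fld ψ u b x)
      + Ex V (fun x => ∑ b, (∑ i, hess (W j) x b i * x i) * fld ψ u b x))
      = ρ j * (- Ex V (fun x => Lop ψ u x * Loc.rad (W j) x)) := by rw [h3]
    rw [mul_add, mul_neg] at h4
    linarith
  have hs := Finset.sum_nonneg fun j (_ : j ∈ Finset.univ) => hj j
  simp only [Finset.sum_add_distrib, Finset.sum_sub_distrib, ← Finset.mul_sum] at hs
  rw [hErr, hD, hGF, hGs]
  rw [← hGF, ← hGs, ← hD] at hs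
  rw [← hGF, ← hGs, ← hD]
  linarith

end Vale.Agent.P227.M.DU
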