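import Vale.Agent.P227.M.DU591.Ineq
import Vale.Agent.P227.M.DU591.Dens

/-! # P227/M/DU591/Loc: the block LOC by the dual line (helper591) -/

open MeasureTheory Filter
open scoped Topology

namespace Vale.Agent.P227.M.DU

variable {n : ℕ} {ψ V : E n → ℝ} {c C M : ℝ}

/-- `L²` bound of `F_M` -/
def StmtFB : Prop := ∀ (n : ℕ) (ψ V : E n → ℝ) (c C M : ℝ), Nice V c C → MM ψ V c C M →
  ∃ K : ℝ, 0 ≤ K ∧ ∀ w : Fin n → E n → ℝ, (∀ b, Test (w b)) →
    Ex V (fun x => ∑ b, FM ψ V w b x ^ 2) ≤ K * Ex V (fun x => ∑ b, Lop ψ (w b) x ^ 2)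

theorem pd_odd {W : E n → ℝ} (hW : Piece W) (i : Fin n) (x : E n) :
    pd i W (-x) = - pd i W x := by
  have h1 : (fun y => W (-y)) = W := funext hW.even
  have hd : Differentiable ℝ W := hW.smooth.differentiable (by simp)
  have h2 : HasFDerivAt (fun y => W (-y)) (-(fderiv ℝ W (-x))) x := by
    have h3 : HasFDerivAt (fun y => W (-y))
        ((fderiv ℝ W (-x)).comp (-ContinuousLinearMap.id ℝ (E n))) x :=
      (hd (-x)).hasFDerivAt.comp x (hasFDerivAt_id x).neg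
    have e : (fderiv ℝ W (-x)).comp (-ContinuousLinearMap.id ℝ (E n)) = -(fderiv ℝ W (-x)) := by
      ext v
      simp
    rw [e] at h3
    exact h3
  rw [h1] at h2
  unfold pd
  rw [h2.fderiv]
  simp

theorem gr_GG {J : ℕ} {W : Fin J → E n → ℝ} (hW : ∀ j, Piece (W j)) (ρ : Fin J → ℝ)
    (b : Fin n) : Gr (GG W ρ b) :=
  Gr.sum _ fun j _ => ((hW j).gr_pd b).const_mul (ρ j)

theorem mean_GG (hV : Nice V c C) {J : ℕ} {W : Fin J → E n → ℝ} (hW : ∀ j, Piece (W j))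
    (ρ : Fin J → ℝ) (b : Fin n) : Ex V (GG W ρ b) = 0 := by
  have h1 := LIN.T592.odd_int hV (r := fun _ => (1 : ℝ)) (g := GG W ρ b) (fun _ => rfl) fun x => by
    unfold GG
    rw [← Finset.sum_neg_distrib]
    refine Finset.sum_congr rfl fun j _ => ?_
    rw [pd_odd (hW j)]
    ring
  unfold Ex
  simp only [one_mul] at h1
  rw [h1, zero_div]

theorem gr_ff {J : ℕ} {W : Fin J → E n → ℝ} (hW : ∀ j, Piece (W j)) (ρ : Fin J → ℝ) :
    Gr (Loc.ff W ρ) :=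
  Gr.sum _ fun j _ => (Gr.sum _ fun i _ => (Gr.coord i).mul ((hW j).gr_pd i)).const_mul (ρ j)

theorem local_of_mmD (hst : StmtStein) (hibp : StmtIBP) (hkey : StmtKeyD) (hE : LIN.StmtESA)
    (hB : LIN.StmtBoch) (hC : LIN.StmtConst) (hFB : StmtFB) (hV : Nice V c C) (h : MM ψ V c C M)
    {J : ℕ} {W : Fin J → E n → ℝ}
    (hW : ∀ j, Piece (W j)) (hVW : V = fun x => ∑ j, W j x) (ρ : Fin J → ℝ) :
    Ex V (fun x => (∑ j, ρ j * ∑ i, x i * pd i (W j) x) ^ 2)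
      - (Ex V (fun x => ∑ j, ρ j * ∑ i, x i * pd i (W j) x)) ^ 2
      ≤ ∑ j, ρ j ^ 2 * Ex V (fun x => (∑ i, x i * pd i (W j) x) + qf (hess (W j) x) x) := by
  have hR : Reg V c C := hV.toReg
  set D := ∑ j, ρ j ^ 2 * Ex V (fun x => (∑ i, x i * pd i (W j) x) + qf (hess (W j) x) x) with hD
  change Ex V (fun x => Loc.ff W ρ x ^ 2) - (Ex V (Loc.ff W ρ)) ^ 2 ≤ D
  set m := Ex V (Loc.ff W ρ) with hm
  have gf : Loc.Gm (Loc.ff W ρ) := Loc.gm_ff hW ρ
  have hr0 : Ex V (fun x => Loc.ff W ρ x - m) = 0 := by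
    rw [Loc.Ex_sub hR gf (Loc.Gm.const m), Loc.Ex_const hR, ← hm, sub_self]
  have hrg : Gr (fun x => Loc.ff W ρ x - m) := (gr_ff hW ρ).sub (Gr.const m)
  refine le_of_forall_pos_le_add fun ε hε => ?_
  obtain ⟨u, hu, h1⟩ := dens hibp hE hB hC hV h hrg hr0 (ε := ε / 3) (by positivity)
  obtain ⟨K, hK0, hK⟩ := hFB n ψ V c C M hV h
  set A := Ex V (fun x => ∑ b, GG W ρ b x ^ 2) with hA
  have hA0 : 0 ≤ A := Loc.Ex_nonneg hR fun x => Finset.sum_nonneg fun b _ => sq_nonneg _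
  set S := Ex V (fun x => ∑ b, fld ψ u b x ^ 2) with hS
  have hS0 : 0 ≤ S := Loc.Ex_nonneg hR fun x => Finset.sum_nonneg fun b _ => sq_nonneg _
  set Q := 2 * K * (2 + 2 * A) + 2 * S + 1 with hQ
  have hQ0 : 0 < Q := by positivity
  set t := ε / 3 / Q with ht
  have ht0 : 0 < t := by positivity
  set δ := min 1 (t * (ε / 3)) with hδ
  have hδ0 : 0 < δ := lt_min one_pos (by positivity)
  have hn : (0 : ℝ) < n + 1 := by positivity
  have hw' : ∀ b : Fin n, ∃ w, Test w ∧ Ex V (fun x => (Lop ψ w x + GG W ρ b x) ^ 2) ≤ δ / (n + 1) :=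
    fun b => dens hibp hE hB hC hV h (gr_GG hW ρ b) (mean_GG hV hW ρ b) (by positivity)
  choose w hw hwδ using hw'
  have hsu : ∀ b, Loc.Gm (fld ψ u b) := fun b => Loc.gm_fld h (Loc.BL.of_test hu) b
  have gF := fun b => gm_FM hV h hw b
  have gL : ∀ b, Loc.Gm (Lop ψ (w b)) := fun b => Loc.gm_Lop h (hw b)
  have gG := fun b => gm_GG hW ρ b
  have hmain := main_ineqD hst hibp hkey hV h hW hVW ρ hw hu
  -- the error term
  have hf : ∀ b, Loc.Gm (fun x => FM ψ V w b x - fld ψ u b x) := fun b => (gF b).sub (hsu b)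
  have hg : ∀ b, Loc.Gm (fun x => -(Lop ψ (w b) x) - GG W ρ b x) := fun b => (gL b).neg.sub (gG b)
  have e1 := Loc.Ex_young hR hf hg ht0
  have e1' : Ex V (fun x => ∑ b, (FM ψ V w b x - fld ψ u b x) * (-(Lop ψ (w b) x) - GG W ρ b x))
      = Ex V (fun x => ∑ b, (-(Lop ψ (w b) x) - GG W ρ b x) * (FM ψ V w b x - fld ψ u b x)) := by
    congr 1
    funext x
    exact Finset.sum_congr rfl fun b _ => mul_comm _ _
  rw [e1'] at e1
  have e2 : Ex V (fun x => ∑ b, (-(Lop ψ (w b) x) - GG W ρ b x) ^ 2) ≤ δ := by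
    have g1 : ∀ b, Loc.Gm (fun x => (Lop ψ (w b) x + GG W ρ b x) ^ 2) := fun b =>
      ((gL b).add (gG b)).sq
    have e3 : (fun x => ∑ b, (-(Lop ψ (w b) x) - GG W ρ b x) ^ 2)
        = fun x => ∑ b, (Lop ψ (w b) x + GG W ρ b x) ^ 2 := by
      funext x
      exact Finset.sum_congr rfl fun b _ => by ring
    rw [e3, Loc.Ex_sum hR _ fun b _ => g1 b]
    calc ∑ b, Ex V (fun x => (Lop ψ (w b) x + GG W ρ b x) ^ 2) ≤ ∑ _b : Fin n, δ / (n + 1) :=
          Finset.sum_le_sum fun b _ => hwδ b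
      _ = n * (δ / (n + 1)) := by simp
      _ ≤ δ := by
          rw [← mul_div_assoc, div_le_iff₀ hn]
          nlinarith
  have e4 : Ex V (fun x => ∑ b, Lop ψ (w b) x ^ 2) ≤ 2 * δ + 2 * A := by
    have g1 : Loc.Gm (fun x => ∑ b, Lop ψ (w b) x ^ 2) := Loc.Gm.fsum fun b => (gL b).sq
    have g2 : Loc.Gm (fun x => ∑ b, (-(Lop ψ (w b) x) - GG W ρ b x) ^ 2) :=
      Loc.Gm.fsum fun b => (hg b).sq
    have g3 : Loc.Gm (fun x => ∑ b, GG W ρ b x ^ 2) := Loc.Gm.fsum fun b => (gG b).sq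
    have e5 := Loc.Ex_mono hR g1 ((g2.const_mul 2).add (g3.const_mul 2)) fun x => by
      rw [Finset.mul_sum, Finset.mul_sum, ← Finset.sum_add_distrib]
      refine Finset.sum_le_sum fun b _ => ?_
      nlinarith [sq_nonneg (-(Lop ψ (w b) x) - GG W ρ b x - GG W ρ b x)]
    rw [Loc.Ex_add hR (g2.const_mul 2) (g3.const_mul 2), Loc.Ex_const_mul, Loc.Ex_const_mul] at e5
    linarith
  have e6 : Ex V (fun x => ∑ b, (FM ψ V w b x - fld ψ u b x) ^ 2) ≤ Q := by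
    have g1 : Loc.Gm (fun x => ∑ b, (FM ψ V w b x - fld ψ u b x) ^ 2) := Loc.Gm.fsum fun b => (hf b).sq
    have g2 : Loc.Gm (fun x => ∑ b, FM ψ V w b x ^ 2) := Loc.Gm.fsum fun b => (gF b).sq
    have g3 : Loc.Gm (fun x => ∑ b, fld ψ u b x ^ 2) := Loc.Gm.fsum fun b => (hsu b).sq
    have e7 := Loc.Ex_mono hR g1 ((g2.const_mul 2).add (g3.const_mul 2)) fun x => by
      rw [Finset.mul_sum, Finset.mul_sum, ← Finset.sum_add_distrib]
      refine Finset.sum_le_sum fun b _ => ?_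
      nlinarith [sq_nonneg (FM ψ V w b x + fld ψ u b x)]
    rw [Loc.Ex_add hR (g2.const_mul 2) (g3.const_mul 2), Loc.Ex_const_mul, Loc.Ex_const_mul] at e7
    have e8 := hK w hw
    have e9 : K * Ex V (fun x => ∑ b, Lop ψ (w b) x ^ 2) ≤ K * (2 + 2 * A) := by
      refine mul_le_mul_of_nonneg_left (e4.trans ?_) hK0
      have : δ ≤ 1 := min_le_left _ _
      linarith
    rw [hQ]
    linarith
  have e10 : t * Ex V (fun x => ∑ b, (FM ψ V w b x - fld ψ u b x) ^ 2) ≤ ε / 3 := by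
    calc t * Ex V (fun x => ∑ b, (FM ψ V w b x - fld ψ u b x) ^ 2) ≤ t * Q :=
          mul_le_mul_of_nonneg_left e6 ht0.le
      _ = ε / 3 := by rw [ht]; exact div_mul_cancel₀ _ hQ0.ne'
  have e11 : Ex V (fun x => ∑ b, (-(Lop ψ (w b) x) - GG W ρ b x) ^ 2) / t ≤ ε / 3 := by
    rw [div_le_iff₀ ht0]
    refine e2.trans ((min_le_right _ _).trans (le_of_eq ?_))
    ring
  -- `E Lu = 0`
  have gu := Loc.gm_Lop h hu
  have hu0 : Ex V (Lop ψ u) = 0 := by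
    have := hibp n ψ V c C M hV h u (fun _ => 1) hu contDiff_const
    have e : ∀ b x, pd b (fun _ : E n => (1 : ℝ)) x = 0 := fun b x => by simp [pd]
    simp only [e, zero_mul, Finset.sum_const_zero, mul_one] at this
    rw [Loc.Ex_neg, Loc.Ex_const hR] at this
    linarith
  have hsq : Ex V (fun x => (Lop ψ u x + (Loc.ff W ρ x - m)) ^ 2)
      = Ex V (fun x => Lop ψ u x ^ 2) + 2 * Ex V (fun x => Lop ψ u x * Loc.ff W ρ x)
        + (Ex V (fun x => Loc.ff W ρ x ^ 2) - m ^ 2) := by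
    have e : (fun x => (Lop ψ u x + (Loc.ff W ρ x - m)) ^ 2)
        = fun x => (((Lop ψ u x ^ 2 + 2 * (Lop ψ u x * Loc.ff W ρ x)) + Loc.ff W ρ x ^ 2)
          + (-(2 * m)) * Lop ψ u x) + ((-(2 * m)) * Loc.ff W ρ x + m ^ 2) := by
      funext x
      ring
    rw [e, Loc.Ex_add hR ((((gu.sq).add ((gu.mul gf).const_mul 2)).add gf.sq).add (gu.const_mul _))
      ((gf.const_mul _).add (Loc.Gm.const _)),
      Loc.Ex_add hR (((gu.sq).add ((gu.mul gf).const_mul 2)).add gf.sq) (gu.const_mul _),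
      Loc.Ex_add hR ((gu.sq).add ((gu.mul gf).const_mul 2)) gf.sq,
      Loc.Ex_add hR gu.sq ((gu.mul gf).const_mul 2), Loc.Ex_add hR (gf.const_mul _) (Loc.Gm.const _),
      Loc.Ex_const_mul, Loc.Ex_const_mul, Loc.Ex_const_mul, Loc.Ex_const hR, hu0, ← hm]
    ring
  have h1' : Ex V (fun x => (Lop ψ u x + (Loc.ff W ρ x - m)) ^ 2) ≤ ε / 3 := h1
  rw [hsq] at h1'
  linarith

/-- block LOC by the dual line -/
theorem stmtLocal_ofD (hst : StmtStein) (hibp : StmtIBP) (hkey : StmtKeyD) (hE : LIN.StmtESA)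
    (hB : LIN.StmtBoch) (hC : LIN.StmtConst) (hFB : StmtFB) (hmm : StmtMM) : StmtLocal := by
  intro n J W ρ c C hW hV
  obtain ⟨ψ, M, h⟩ := hmm n _ c C hV
  exact local_of_mmD hst hibp hkey hE hB hC hFB hV h hW rfl ρ

end Vale.Agent.P227.M.DU
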