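import Vale.Agent.P227.M.LIN.Iface

/-! # P227/M/DU591: the DUAL end of the proof (helper591, helper922).

Instead of the scalar density `L(L+1)F` one solves componentwise `-L ω = w`, `w = ∑ ρ_j ∇V_j`.
`StmtLocal` follows from `StmtStein`, `StmtIBP`, `StmtBoch`, `StmtESA`, `StmtConst`, `StmtMM` and `StmtKeyD`. -/

open MeasureTheory

namespace Vale.Agent.P227.M.DU

/-- symmetric part of `D_x ω` -/
noncomputable def sD {n : ℕ} (w : Fin n → E n → ℝ) (x : E n) : Matrix (Fin n) (Fin n) ℝ :=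
  fun a b => (pd a (w b) x + pd b (w a) x) / 2

/-- `M = τ sym(D_x ω) τ` -/
noncomputable def Mf {n : ℕ} (ψ : E n → ℝ) (w : Fin n → E n → ℝ) (x : E n) :
    Matrix (Fin n) (Fin n) ℝ :=
  tau ψ x * sD w x * tau ψ x

/-- `F_M = -div_μ M` -/
noncomputable def FM {n : ℕ} (ψ V : E n → ℝ) (w : Fin n → E n → ℝ) (b : Fin n) (x : E n) : ℝ :=
  ∑ a, (pd a V x * Mf ψ w x a b - pd a (fun z => Mf ψ w z a b) x)

/-- the dual key inequality, `N = sym(D_x ω)` :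
`E tr (τNτN) + E tr (H τNτNτ) ≤ 2 E ⟨-Lω, F_M⟩` (first derivative form) -/
def StmtKeyD : Prop := ∀ (n : ℕ) (ψ V : E n → ℝ) (c C M : ℝ), Nice V c C → MM ψ V c C M →
  ∀ w : Fin n → E n → ℝ, (∀ b, Test (w b)) →
    Ex V (fun x => (tau ψ x * sD w x * tau ψ x * sD w x).trace)
      + Ex V (fun x => (hess V x * tau ψ x * sD w x * tau ψ x * sD w x * tau ψ x).trace)
      ≤ 2 * Ex V (fun x => ∑ b, -(Lop ψ (w b) x) * FM ψ V w b x)

/-- flat Bochner identity : `E (Lu)² = E ⟨Hs,s⟩ + E tr (D_x s)²`, `s = τ∇u` -/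
def StmtFlat : Prop := ∀ (n : ℕ) (ψ V : E n → ℝ) (c C M : ℝ), Nice V c C → MM ψ V c C M →
  ∀ u : E n → ℝ, Test u →
    Ex V (fun x => (Lop ψ u x) ^ 2) =
      Ex V (fun x => ∑ a, ∑ b, hess V x a b * fld ψ u a x * fld ψ u b x)
        + Ex V (fun x => ∑ a, ∑ b, pd a (fld ψ u b) x * pd b (fld ψ u a) x)

end Vale.Agent.P227.M.DU
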